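import Vale.Agent.P141.H744.BirthK
import Vale.Agent.P141.H747.GridF

/-!
# P141, line (A): the affected squares of the other two functions at the nodes of a shifted grid

`Q k (x0-cell, r, s)` : affected squares of a face, packing `H460.QPack`.

* `nbQ` : one of the nine neighbours is affected; `qpack_nb`, `gpack_nb` : packing;
* `bornA`, `bornB` : the cube of `(x0, x1, x3)` at an affected square of `A` (face `x0 x2 x3`) or of
  `b` (face `x0 x1 x2`), any tie between `-4` and `5`; `gpack_bornA`, `gpack_bornB`;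
* `shift_bornA`, `shift_bornB`, `shift_bornC` : a node of a plane of a shifted grid, whose shifted
  square meets an affected standard square : the standard cube of every point of the node is in
  `bornA`, `bornB`, `nbQ`;
* `sum_shift_node` : a sum over the nodes and their points, in real coordinates.
-/

namespace Vale.Agent.P141.H393.TieNb

open Finset
open Vale.Agent.P141.PL (Pt iv ix cb cx mem_iv mem_cb ix_ix)
open Vale.Agent.P141.PL.H804 (bx3)
open Vale.Agent.P141.H460 (QPack GPack nA1 nA3 pack2)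
open Vale.Agent.P141.H795 (ys E8)
open Vale.Agent.P141.H747 (sG)

noncomputable section

open scoped Classical

/-! ### Neighbours -/

/-- one of the nine neighbours is affected -/
def nbQ (Q : ℕ → Pt → Prop) (k : ℕ) (m : Pt) : Prop :=
  ∃ a ∈ Icc (-1 : ℤ) 1, ∃ b ∈ Icc (-1 : ℤ) 1, Q k (m.1, m.2.1 + a, m.2.2 + b)

theorem ite_ex_le {α : Type*} (I : Finset α) (p : α → Prop) [DecidablePred p] {w : ℝ}
    (hw : 0 ≤ w) {q : Prop} [Decidable q] (hq : q → ∃ i ∈ I, p i) :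
    (if q then w else 0) ≤ ∑ i ∈ I, if p i then w else 0 := by
  split_ifs with h
  · obtain ⟨i, hi, hp⟩ := hq h
    refine le_trans (le_of_eq (if_pos hp).symm) (single_le_sum (f := fun i => if p i then w else 0)
      (fun j _ => ?_) hi)
    show 0 ≤ (if p j then w else 0)
    split_ifs
    · exact hw
    · exact le_rfl
  · refine sum_nonneg fun j _ => ?_
    split_ifs
    · exact hw
    · exact le_rfl

/-- a translated line of cells lies over three lines -/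
theorem tr_le {d : ℕ} {M a : ℤ} (ha : a ∈ Icc (-1 : ℤ) 1) (φ : ℤ → ℝ) (hφ : ∀ r, 0 ≤ φ r) :
    ∑ r ∈ iv d M, φ (r + a) ≤ ∑ i ∈ Icc (-1 : ℤ) 1, ∑ r ∈ iv d (M + i), φ r := by
  have h1 : ∑ r ∈ iv d M, φ (r + a) = ∑ r ∈ (iv d M).image (fun r => r + a), φ r := by
    rw [sum_image]
    intro x _ y _ h
    simp only at h
    omega
  have h2 : ∑ i ∈ Icc (-1 : ℤ) 1, ∑ r ∈ iv d (M + i), φ r =
      ∑ r ∈ (Icc (-1 : ℤ) 1).biUnion (fun i => iv d (M + i)), φ r := by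
    rw [sum_biUnion]
    intro i _ j _ hij
    rw [Function.onFun, disjoint_left]
    intro r hr hr'
    rw [mem_iv] at hr hr'
    apply hij
    have : M + i = M + j := hr.symm.trans hr'
    omega
  rw [h1, h2]
  refine sum_le_sum_of_subset_of_nonneg ?_ fun r _ _ => hφ r
  intro r hr
  obtain ⟨r', hr', rfl⟩ := mem_image.1 hr
  rw [mem_biUnion]
  rw [mem_Icc] at ha
  have hD : (1 : ℤ) ≤ 2 ^ d := one_le_pow₀ (by norm_num)
  have e : ∀ x : ℤ, ix d x = x / 2 ^ d := fun x => rfl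
  refine ⟨ix d (r' + a) - M, ?_, ?_⟩
  · rw [mem_iv] at hr'
    rw [mem_Icc]
    rw [e] at hr' ⊢
    have hpos : (0 : ℤ) < 2 ^ d := by positivity
    generalize hDD : (2 : ℤ) ^ d = D at *
    have g1 := Int.emod_add_mul_ediv r' D
    have g2 := Int.emod_nonneg r' hpos.ne'
    have g3 := Int.emod_lt_of_pos r' hpos
    have g4 := Int.emod_add_mul_ediv (r' + a) D
    have g5 := Int.emod_nonneg (r' + a) hpos.ne'
    have g6 := Int.emod_lt_of_pos (r' + a) hpos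
    constructor
    · by_contra hc
      have : (r' + a) / D ≤ M - 2 := by omega
      nlinarith
    · by_contra hc
      have : M + 2 ≤ (r' + a) / D := by omega
      nlinarith
  · rw [mem_iv]
    ring

theorem card3 : (Icc (-1 : ℤ) 1).card = 3 := by simp

/-- **Packing of the neighbours.** -/
theorem qpack_nb {n : ℕ} {Q : ℕ → Pt → Prop} {c : ℝ} (h : QPack n Q c) :
    QPack n (nbQ Q) (81 * c) := by
  intro x0 K hK r s
  have h1 : ∀ k ∈ range (K + 1), ∑ r' ∈ iv (K - k) r, ∑ s' ∈ iv (K - k) s,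
      (if nbQ Q k (ix k x0, r', s') then (4 : ℝ) ^ k else 0) ≤
      ∑ a ∈ Icc (-1 : ℤ) 1, ∑ b ∈ Icc (-1 : ℤ) 1, ∑ i ∈ Icc (-1 : ℤ) 1, ∑ j ∈ Icc (-1 : ℤ) 1,
        ∑ r' ∈ iv (K - k) (r + i), ∑ s' ∈ iv (K - k) (s + j),
          (if Q k (ix k x0, r', s') then (4 : ℝ) ^ k else 0) := by
    intro k _
    have hn : ∀ r' s' : ℤ, 0 ≤ (if Q k (ix k x0, r', s') then (4 : ℝ) ^ k else 0) := by
      intro r' s'
      split_ifs <;> positivity
    have g1 : ∀ r' s' : ℤ, (if nbQ Q k (ix k x0, r', s') then (4 : ℝ) ^ k else 0) ≤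
        ∑ a ∈ Icc (-1 : ℤ) 1, ∑ b ∈ Icc (-1 : ℤ) 1,
          (if Q k (ix k x0, r' + a, s' + b) then (4 : ℝ) ^ k else 0) := by
      intro r' s'
      have h4 : (0 : ℝ) ≤ 4 ^ k := by positivity
      refine (ite_ex_le (q := nbQ Q k (ix k x0, r', s')) (Icc (-1 : ℤ) 1)
        (fun a => ∃ b ∈ Icc (-1 : ℤ) 1, Q k (ix k x0, r' + a, s' + b)) h4 fun h => h).trans ?_
      exact sum_le_sum fun a _ => ite_ex_le (Icc (-1 : ℤ) 1)
        (fun b => Q k (ix k x0, r' + a, s' + b)) h4 fun h => h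
    refine (sum_le_sum fun r' _ => sum_le_sum fun s' _ => g1 r' s').trans ?_
    have e1 : ∑ r' ∈ iv (K - k) r, ∑ s' ∈ iv (K - k) s, ∑ a ∈ Icc (-1 : ℤ) 1,
        ∑ b ∈ Icc (-1 : ℤ) 1, (if Q k (ix k x0, r' + a, s' + b) then (4 : ℝ) ^ k else 0) =
        ∑ a ∈ Icc (-1 : ℤ) 1, ∑ b ∈ Icc (-1 : ℤ) 1, ∑ r' ∈ iv (K - k) r, ∑ s' ∈ iv (K - k) s,
          (if Q k (ix k x0, r' + a, s' + b) then (4 : ℝ) ^ k else 0) := by
      have a1 : ∀ r' : ℤ, ∑ s' ∈ iv (K - k) s, ∑ a ∈ Icc (-1 : ℤ) 1,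
          ∑ b ∈ Icc (-1 : ℤ) 1, (if Q k (ix k x0, r' + a, s' + b) then (4 : ℝ) ^ k else 0) =
          ∑ a ∈ Icc (-1 : ℤ) 1, ∑ b ∈ Icc (-1 : ℤ) 1, ∑ s' ∈ iv (K - k) s,
            (if Q k (ix k x0, r' + a, s' + b) then (4 : ℝ) ^ k else 0) := by
        intro r'
        rw [sum_comm]
        exact sum_congr rfl fun a _ => sum_comm
      simp only [a1]
      rw [sum_comm]
      exact sum_congr rfl fun a _ => sum_comm
    rw [e1]
    refine sum_le_sum fun a ha => sum_le_sum fun b hb => ?_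
    refine (sum_le_sum fun r' _ => tr_le hb (fun s' => if Q k (ix k x0, r' + a, s') then
      (4 : ℝ) ^ k else 0) fun s' => hn _ _).trans ?_
    rw [sum_comm]
    have e2 : ∑ j ∈ Icc (-1 : ℤ) 1, ∑ r' ∈ iv (K - k) r, ∑ s' ∈ iv (K - k) (s + j),
        (if Q k (ix k x0, r' + a, s') then (4 : ℝ) ^ k else 0) ≤
        ∑ j ∈ Icc (-1 : ℤ) 1, ∑ i ∈ Icc (-1 : ℤ) 1, ∑ r' ∈ iv (K - k) (r + i),
          ∑ s' ∈ iv (K - k) (s + j), (if Q k (ix k x0, r', s') then (4 : ℝ) ^ k else 0) := by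
      refine sum_le_sum fun j _ => ?_
      exact tr_le ha (fun r' => ∑ s' ∈ iv (K - k) (s + j),
        (if Q k (ix k x0, r', s') then (4 : ℝ) ^ k else 0)) fun r' => sum_nonneg fun s' _ => hn _ _
    refine e2.trans (le_of_eq ?_)
    rw [sum_comm]
  refine (sum_le_sum h1).trans ?_
  have e3 : ∑ k ∈ range (K + 1), ∑ a ∈ Icc (-1 : ℤ) 1, ∑ b ∈ Icc (-1 : ℤ) 1,
      ∑ i ∈ Icc (-1 : ℤ) 1, ∑ j ∈ Icc (-1 : ℤ) 1, ∑ r' ∈ iv (K - k) (r + i),
        ∑ s' ∈ iv (K - k) (s + j), (if Q k (ix k x0, r', s') then (4 : ℝ) ^ k else 0) =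
      ∑ _a ∈ Icc (-1 : ℤ) 1, ∑ _b ∈ Icc (-1 : ℤ) 1, ∑ i ∈ Icc (-1 : ℤ) 1, ∑ j ∈ Icc (-1 : ℤ) 1,
        ∑ k ∈ range (K + 1), ∑ r' ∈ iv (K - k) (r + i),
          ∑ s' ∈ iv (K - k) (s + j), (if Q k (ix k x0, r', s') then (4 : ℝ) ^ k else 0) := by
    rw [sum_comm]
    refine sum_congr rfl fun a _ => ?_
    rw [sum_comm]
    refine sum_congr rfl fun b _ => ?_
    rw [sum_comm]
    refine sum_congr rfl fun i _ => ?_
    rw [sum_comm]
  rw [e3]
  refine (sum_le_sum fun a _ => sum_le_sum fun b _ => sum_le_sum fun i _ => sum_le_sum fun j _ =>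
    h x0 K hK (r + i) (s + j)).trans (le_of_eq ?_)
  simp only [sum_const, card3, nsmul_eq_mul]
  push_cast
  ring

/-- a finite union -/
theorem gpack_any {α : Type*} (I : Finset α) {A : α → ℕ → Pt → Prop} {K : ℕ} {P : ℝ}
    (h : ∀ i ∈ I, GPack (A i) K P) {B : ℕ → Pt → Prop} (hB : ∀ k m, B k m → ∃ i ∈ I, A i k m) :
    GPack B K (I.card * P) := by
  intro k hk m
  have h1 : ∀ y ∈ cb k m, ∑ j ∈ range (k + 1),
      (if B j (cx j y) then (1 : ℝ) else 0) ≤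
      ∑ i ∈ I, ∑ j ∈ range (k + 1), (if A i j (cx j y) then (1 : ℝ) else 0) := by
    intro y _
    rw [sum_comm]
    refine sum_le_sum fun j _ => ?_
    exact ite_ex_le (q := B j (cx j y)) I (fun i => A i j (cx j y)) zero_le_one (hB j (cx j y))
  refine (sum_le_sum h1).trans ?_
  rw [sum_comm]
  have h2 : ∀ i ∈ I, ∑ y ∈ cb k m, ∑ j ∈ range (k + 1),
      (if A i j (cx j y) then (1 : ℝ) else 0) ≤ P * 8 ^ k := fun i hi => h i hi k hk m
  refine (sum_le_sum h2).trans (le_of_eq ?_)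
  rw [sum_const, nsmul_eq_mul]
  ring

/-- **Neighbours of the squares of `C`** (face `x0 x1 x3`). -/
theorem gpack_nb {n : ℕ} {Q : ℕ → Pt → Prop} {c : ℝ} (h : QPack n Q c) {K : ℕ} (hK : K ≤ n) :
    GPack (nbQ Q) K (81 * c) :=
  fun _ hk m => pack2 (qpack_nb h) (hk.trans hK) m

/-- the cube of `(x0, x1, x3)` at an affected square of `A` -/
def bornA (Q : ℕ → Pt → Prop) (k : ℕ) (m : Pt) : Prop :=
  ∃ o ∈ Icc (-4 : ℤ) 5, nA1 o (nbQ Q) k m

/-- the cube of `(x0, x1, x3)` at an affected square of `b` -/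
def bornB (Q : ℕ → Pt → Prop) (k : ℕ) (m : Pt) : Prop :=
  ∃ o ∈ Icc (-4 : ℤ) 5, nA3 o (nbQ Q) k m

theorem card10 : (Icc (-4 : ℤ) 5).card = 10 := by simp

theorem gpack_bornA {n : ℕ} {Q : ℕ → Pt → Prop} {c : ℝ} (h : QPack n Q c) {K : ℕ} (hK : K ≤ n) :
    GPack (bornA Q) K (13770 * c) := by
  have h1 : ∀ o ∈ Icc (-4 : ℤ) 5, GPack (nA1 o (nbQ Q)) K (17 * (81 * c)) := by
    intro o ho k hk m
    rw [mem_Icc] at ho
    exact H744.packN1 (qpack_nb h) ⟨by omega, by omega⟩ (hk.trans hK) m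
  intro k hk m
  refine (gpack_any (Icc (-4 : ℤ) 5) h1 (fun _ _ h => h) k hk m).trans (le_of_eq ?_)
  rw [card10]
  push_cast
  ring

theorem gpack_bornB {n : ℕ} {Q : ℕ → Pt → Prop} {c : ℝ} (h : QPack n Q c) {K : ℕ} (hK : K ≤ n) :
    GPack (bornB Q) K (13770 * c) := by
  have h1 : ∀ o ∈ Icc (-4 : ℤ) 5, GPack (nA3 o (nbQ Q)) K (17 * (81 * c)) := by
    intro o ho k hk m
    rw [mem_Icc] at ho
    exact H744.packN3 (qpack_nb h) ⟨by omega, by omega⟩ (hk.trans hK) m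
  intro k hk m
  refine (gpack_any (Icc (-4 : ℤ) 5) h1 (fun _ _ h => h) k hk m).trans (le_of_eq ?_)
  rw [card10]
  push_cast
  ring

/-! ### The nodes of a shifted grid -/

theorem ix_lo (k : ℕ) (x : ℤ) : 2 ^ k * ix k x ≤ x ∧ x < 2 ^ k * ix k x + 2 ^ k := by
  have h : x ∈ iv k (ix k x) := mem_iv.2 rfl
  unfold PL.iv at h
  rw [mem_Ico] at h
  constructor
  · linarith [h.1]
  · linarith [h.2]

/-- two points of one shifted cell are in neighbouring cells -/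
theorem nb_cell {k : ℕ} {x x' s : ℤ} (h : ix k x = ix k x') :
    ix k (x' + s) - ix k (x + s) ∈ Icc (-1 : ℤ) 1 := by
  have h1 := ix_lo k x
  have h2 := ix_lo k x'
  have h3 := ix_lo k (x + s)
  have h4 := ix_lo k (x' + s)
  have hD : (0 : ℤ) < 2 ^ k := by positivity
  rw [h] at h1
  rw [mem_Icc]
  generalize (2 : ℤ) ^ k = D at *
  constructor
  · by_contra hc
    have : ix k (x' + s) + 2 ≤ ix k (x + s) := by omega
    nlinarith
  · by_contra hc
    have : ix k (x + s) + 2 ≤ ix k (x' + s) := by omega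
    nlinarith

/-- **The tie of the points of a node of a plane of a shifted grid.** -/
theorem tie_nb {k : ℕ} {x0 : ℤ} {s : Pt} {j : ℤ} (hj : j ∈ Icc (0 : ℤ) 2) {m : Pt}
    (hm : m.1 + m.2.1 + m.2.2 = ix k (ys (-x0) s) - j) {x y z : ℤ} (hx : ix k x = m.2.2)
    (hy : ix k y = m.2.1) (hz : ix k z = m.1) :
    ix k x0 + ix k (x + s.1) + ix k (y + s.2.1) + ix k (z + s.2.2) ∈ Icc (-6 : ℤ) 3 := by
  have h1 := ix_lo k x
  have h2 := ix_lo k y
  have h3 := ix_lo k z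
  have h4 := ix_lo k (ys (-x0) s)
  have h5 := ix_lo k x0
  have h6 := ix_lo k (x + s.1)
  have h7 := ix_lo k (y + s.2.1)
  have h8 := ix_lo k (z + s.2.2)
  rw [hx] at h1
  rw [hy] at h2
  rw [hz] at h3
  have hD : (1 : ℤ) ≤ 2 ^ k := one_le_pow₀ (by norm_num)
  have e : ys (-x0) s = -x0 + 3 - s.1 - s.2.1 - s.2.2 := rfl
  rw [mem_Icc] at hj ⊢
  generalize ix k (ys (-x0) s) = Y at *
  rw [e] at h4
  generalize (2 : ℤ) ^ k = D at *
  have hs : D * m.1 + D * m.2.1 + D * m.2.2 = D * Y - D * j := by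
    rw [← mul_add, ← mul_add, hm]
    ring
  have hj1 : 0 ≤ D * j := mul_nonneg (by omega) hj.1
  have hj2 : D * j ≤ D * 2 := mul_le_mul_of_nonneg_left hj.2 (by omega)
  generalize ix k x0 = a0 at *
  generalize ix k (x + s.1) = a1 at *
  generalize ix k (y + s.2.1) = a2 at *
  generalize ix k (z + s.2.2) = a3 at *
  constructor
  · by_contra hc
    have : a0 + a1 + a2 + a3 ≤ -7 := by omega
    have h9 : D * (a0 + a1 + a2 + a3) ≤ D * (-7) := mul_le_mul_of_nonneg_left this (by omega)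
    have h10 : D * (a0 + a1 + a2 + a3) = D * a0 + D * a1 + D * a2 + D * a3 := by ring
    omega
  · by_contra hc
    have : 4 ≤ a0 + a1 + a2 + a3 := by omega
    have h9 : D * 4 ≤ D * (a0 + a1 + a2 + a3) := mul_le_mul_of_nonneg_left this (by omega)
    have h10 : D * (a0 + a1 + a2 + a3) = D * a0 + D * a1 + D * a2 + D * a3 := by ring
    omega

/-- **A node with an affected shifted square of `A`.** -/
theorem shift_bornA {Q : ℕ → Pt → Prop} {k : ℕ} {x0 : ℤ} {s : Pt} {j : ℤ}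
    (hj : j ∈ Icc (0 : ℤ) 2) {m : Pt} (hm : m.1 + m.2.1 + m.2.2 = ix k (ys (-x0) s) - j)
    {x y z z' : ℤ} (hx : ix k x = m.2.2) (hy : ix k y = m.2.1) (hz : ix k z = m.1)
    (hz' : ix k z' = m.1) (hQ : Q k (ix k x0, ix k (y + s.2.1), ix k (z' + s.2.2))) :
    bornA Q k (ix k x0, ix k (x + s.1), ix k (z + s.2.2)) := by
  have h1 := tie_nb hj hm hx hy hz
  have h2 : ix k (z' + s.2.2) - ix k (z + s.2.2) ∈ Icc (-1 : ℤ) 1 := nb_cell (hz.trans hz'.symm)
  rw [mem_Icc] at h1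
  refine ⟨ix k x0 + ix k (x + s.1) + ix k (y + s.2.1) + ix k (z + s.2.2) + 2, ?_, ?_⟩
  · rw [mem_Icc]
    constructor <;> omega
  · unfold H460.nA1 nbQ
    refine ⟨0, by simp, ix k (z' + s.2.2) - ix k (z + s.2.2), h2, ?_⟩
    have e1 : ix k x0 + ix k (x + s.1) + ix k (y + s.2.1) + ix k (z + s.2.2) + 2 - 2 - ix k x0 -
        ix k (x + s.1) - ix k (z + s.2.2) + 0 = ix k (y + s.2.1) := by ring
    have e2 : ix k (z + s.2.2) + (ix k (z' + s.2.2) - ix k (z + s.2.2)) = ix k (z' + s.2.2) := by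
      ring
    show Q k (ix k x0, ix k x0 + ix k (x + s.1) + ix k (y + s.2.1) + ix k (z + s.2.2) + 2 - 2 -
      ix k x0 - ix k (x + s.1) - ix k (z + s.2.2) + 0,
      ix k (z + s.2.2) + (ix k (z' + s.2.2) - ix k (z + s.2.2)))
    rw [e1, e2]
    exact hQ

/-- **A node with an affected shifted square of `b`.** -/
theorem shift_bornB {Q : ℕ → Pt → Prop} {k : ℕ} {x0 : ℤ} {s : Pt} {j : ℤ}
    (hj : j ∈ Icc (0 : ℤ) 2) {m : Pt} (hm : m.1 + m.2.1 + m.2.2 = ix k (ys (-x0) s) - j)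
    {x x' y z : ℤ} (hx : ix k x = m.2.2) (hx' : ix k x' = m.2.2) (hy : ix k y = m.2.1)
    (hz : ix k z = m.1) (hQ : Q k (ix k x0, ix k (x' + s.1), ix k (y + s.2.1))) :
    bornB Q k (ix k x0, ix k (x + s.1), ix k (z + s.2.2)) := by
  have h1 := tie_nb hj hm hx hy hz
  have h2 : ix k (x' + s.1) - ix k (x + s.1) ∈ Icc (-1 : ℤ) 1 := nb_cell (hx.trans hx'.symm)
  rw [mem_Icc] at h1
  refine ⟨ix k x0 + ix k (x + s.1) + ix k (y + s.2.1) + ix k (z + s.2.2) + 2, ?_, ?_⟩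
  · rw [mem_Icc]
    constructor <;> omega
  · unfold H460.nA3 nbQ
    refine ⟨ix k (x' + s.1) - ix k (x + s.1), h2, 0, by simp, ?_⟩
    have e1 : ix k x0 + ix k (x + s.1) + ix k (y + s.2.1) + ix k (z + s.2.2) + 2 - 2 - ix k x0 -
        ix k (x + s.1) - ix k (z + s.2.2) + 0 = ix k (y + s.2.1) := by ring
    have e2 : ix k (x + s.1) + (ix k (x' + s.1) - ix k (x + s.1)) = ix k (x' + s.1) := by
      ring
    show Q k (ix k x0, ix k (x + s.1) + (ix k (x' + s.1) - ix k (x + s.1)),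
      ix k x0 + ix k (x + s.1) + ix k (y + s.2.1) + ix k (z + s.2.2) + 2 - 2 -
      ix k x0 - ix k (x + s.1) - ix k (z + s.2.2) + 0)
    rw [e1, e2]
    exact hQ

/-- **A node with an affected shifted square of `C`.** -/
theorem shift_bornC {Q : ℕ → Pt → Prop} {k : ℕ} {x0 : ℤ} {s : Pt} {x x' z z' : ℤ}
    (hx : ix k x = ix k x') (hz : ix k z = ix k z')
    (hQ : Q k (ix k x0, ix k (x' + s.1), ix k (z' + s.2.2))) :
    nbQ Q k (ix k x0, ix k (x + s.1), ix k (z + s.2.2)) := by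
  refine ⟨ix k (x' + s.1) - ix k (x + s.1), nb_cell hx, ix k (z' + s.2.2) - ix k (z + s.2.2),
    nb_cell hz, ?_⟩
  have e1 : ix k (x + s.1) + (ix k (x' + s.1) - ix k (x + s.1)) = ix k (x' + s.1) := by ring
  have e2 : ix k (z + s.2.2) + (ix k (z' + s.2.2) - ix k (z + s.2.2)) = ix k (z' + s.2.2) := by
    ring
  show Q k (ix k x0, ix k (x + s.1) + (ix k (x' + s.1) - ix k (x + s.1)),
    ix k (z + s.2.2) + (ix k (z' + s.2.2) - ix k (z + s.2.2)))
  rw [e1, e2]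
  exact hQ

/-- **The points of the nodes of a plane of a shifted grid in real coordinates**: `f X1 X3` zero off
the root. -/
theorem sum_shift_node (K : ℕ) (M : Pt) (c : ℤ) (s : Pt) (j : ℤ) (e : Pt) (k : ℕ)
    (f : ℤ → ℤ → ℝ) (hf : ∀ x z, 0 ≤ f x z)
    (h0 : ∀ x z, ¬ (ix K x = M.1 ∧ ix K z = M.2.2) → f x z = 0) :
    ∑ m ∈ sG K M c s j e k, ∑ x ∈ iv k m.2.2, ∑ z ∈ iv k m.1, f (x + s.1) (z + s.2.2) ≤
      ∑ x ∈ iv K M.1, ∑ z ∈ iv K M.2.2, f x z := by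
  -- the points of different nodes are different
  have h1 : ∑ m ∈ sG K M c s j e k, ∑ x ∈ iv k m.2.2, ∑ z ∈ iv k m.1, f (x + s.1) (z + s.2.2) =
      ∑ m ∈ sG K M c s j e k, ∑ p ∈ iv k m.2.2 ×ˢ iv k m.1, f (p.1 + s.1) (p.2 + s.2.2) :=
    sum_congr rfl fun m _ => by rw [sum_product]
  rw [h1, ← sum_biUnion]
  · have h2 : ∑ p ∈ (sG K M c s j e k).biUnion fun m => iv k m.2.2 ×ˢ iv k m.1,
        f (p.1 + s.1) (p.2 + s.2.2) =
        ∑ q ∈ ((sG K M c s j e k).biUnion fun m => iv k m.2.2 ×ˢ iv k m.1).image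
          (fun p : ℤ × ℤ => (p.1 + s.1, p.2 + s.2.2)), f q.1 q.2 := by
      rw [sum_image]
      intro p _ q _ h
      simp only [Prod.mk.injEq] at h
      ext
      · omega
      · omega
    rw [h2, ← sum_product']
    set S := ((sG K M c s j e k).biUnion fun m => iv k m.2.2 ×ˢ iv k m.1).image
          (fun p : ℤ × ℤ => (p.1 + s.1, p.2 + s.2.2)) with hS
    rw [← sum_filter_add_sum_filter_not S (fun q => ix K q.1 = M.1 ∧ ix K q.2 = M.2.2)]
    have h3 : ∑ q ∈ S with ¬ (ix K q.1 = M.1 ∧ ix K q.2 = M.2.2), f q.1 q.2 = 0 :=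
      sum_eq_zero fun q hq => h0 q.1 q.2 (mem_filter.1 hq).2
    rw [h3, add_zero]
    refine sum_le_sum_of_subset_of_nonneg ?_ fun q _ _ => hf _ _
    intro q hq
    rw [mem_product, mem_iv, mem_iv]
    exact (mem_filter.1 hq).2
  · intro m hm m' hm' hne
    rw [Function.onFun, disjoint_left]
    intro p hp hp'
    rw [mem_product, mem_iv, mem_iv] at hp hp'
    apply hne
    have g := (mem_filter.1 hm).2
    have g' := (mem_filter.1 hm').2
    have a1 : m.2.2 = m'.2.2 := hp.1.symm.trans hp'.1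
    have a2 : m.1 = m'.1 := hp.2.symm.trans hp'.2
    refine Prod.ext a2 (Prod.ext ?_ a1)
    have g3 : m.1 + m.2.1 + m.2.2 = m'.1 + m'.2.1 + m'.2.2 := g.trans g'.symm
    omega

end

end Vale.Agent.P141.H393.TieNb
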