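import Vale.Agent.P141.H393.Mbb2
import Vale.Agent.P141.PL.H855.Mov0

/-!
# P141, line W, scale invariant version: the Prop `MBB0` of `H855/Mov0`
-/

namespace Vale.Agent.P141.H393

open Finset Vale.Agent.P141.PL.H855 Vale.Agent.P141.H845
open Vale.Agent.P141.PL.H571 (W mem_W mem_cell card_cell)

/-- **The black box for four block families, without heights.** -/
theorem mbb0_root2 : MBB0 H347.Root2 := by
  classical
  refine ⟨24576, by norm_num, ?_⟩
  intro n P hP hr o ho w 𝒲 hwn hReg A e K R hA he hK hR0 hR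
  have hex := fun j => (hA j).win
  choose T G hT hTG using hex
  -- the blocks
  set G' : Fin 4 → ℕ × ℤ → ℤ → ℝ := fun j i => cut i (A j i) with hG'
  have hval : ∀ j, ∀ N ∈ 𝒲, ∀ y ∈ W N.1 N.2, G' j (T j N) y = A j N y := by
    intro j N hN y hy
    have hTN := (hT j).mem N hN
    have hb := (hT j).bel N hN
    have hy' : y ∈ W (T j N).1 (T j N).2 := bel_W_sub hb hy
    have htop : T j (T j N) = T j N := (hT j).conv N hN _ hTN hb (bel_refl _)
    simp only [hG']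
    rw [cut_of_mem hy', hTG j _ hTN y hy', htop, hTG j N hN y hy]
  have hwin : ∀ j, Win 𝒲 (T j) := fun j => ⟨(hT j).mem, (hT j).bel, (hT j).conv⟩
  have htops : ∀ j, ∑ i ∈ H845.tops 𝒲 (T j), (2 : ℝ) ^ i.1 ≤ K j * 2 ^ w.1 := by
    intro j
    rcases 𝒲.eq_empty_or_nonempty with h0 | ⟨N, hN⟩
    · have h1 : H845.tops 𝒲 (T j) = ∅ := by
        ext i
        rw [H845.mem_tops, h0]
        simp
      rw [h1, sum_empty]
      have := hK j
      positivity
    · have hw : w ∈ 𝒲 := hReg.cl N hN w (hReg.bel N hN) (bel_refl w)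
      have h1 : H845.tops 𝒲 (T j) = PL.H855.tops 𝒲 (T j) w := by
        ext i
        rw [H845.mem_tops, PL.H855.mem_tops]
        constructor
        · rintro ⟨h2, h3⟩; exact ⟨h2, hReg.bel i h2, h3⟩
        · rintro ⟨h2, _, h3⟩; exact ⟨h2, h3⟩
      rw [h1]
      exact (hT j).pack w hw
  have hαsq : ∀ j, √(e j) ^ 2 = e j := fun j => Real.sq_sqrt (he j).le
  have hprod : √(∏ j, e j) = ∏ j, √(e j) := by
    rw [Real.sqrt_eq_rpow, ← Real.finsetProd_rpow _ _ (fun i _ => (he i).le)]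
    exact prod_congr rfl fun i _ => (Real.sqrt_eq_rpow _).symm
  have h1 := mbb2_geom hP hr G' T (o := o) (K := w.1) (V := w.2) (𝒩 := 𝒲) hwin
    (fun j i => cut_supp _ _) ho hwn
    (fun N hN => ⟨hReg.pos N hN, (hReg.bel N hN).1, (hReg.bel N hN).2⟩)
    (fun N hN k' h2 h3 => by
      have h4 : Bel N (k', N.2 / 2 ^ (k' - N.1)) := ⟨h2, rfl⟩
      exact hReg.cl N hN _ h4 (bel_of_le h4 (hReg.bel N hN) h3))
    (α := fun j => √(e j)) (fun j => Real.sqrt_pos.2 (he j))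
    (fun j N hN => by
      rw [hαsq]
      refine (le_of_eq (sum_congr rfl fun y hy => ?_)).trans ((hA j).en N hN)
      rw [hval j N hN y hy])
    (M := K) (fun j => by linarith [hK j]) htops (A := (∏ j, √(e j)) * R)
    (fun a b hab => by
      refine mul_le_mul_of_nonneg_left ?_ (prod_nonneg fun j _ => Real.sqrt_nonneg _)
      calc √(K a * K b) ≤ √(R ^ 2) := Real.sqrt_le_sqrt (hR a b hab)
        _ = R := Real.sqrt_sq hR0)
  have h2 : TT o 𝒲 A = ∑ N ∈ 𝒲, |wN o (fun j => G' j (T j N)) N| := by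
    unfold TT
    refine sum_congr rfl fun N hN => ?_
    rw [H845.wN_congr ho fun j y hy => (hval j N hN y hy).symm]
  rw [h2, hprod]
  refine h1.trans (le_of_eq ?_)
  ring

/-- the same for `H337.RootQ 2` -/
theorem mbb0_rootQ : MBB0 (Vale.Agent.P141.H337.RootQ 2) := by
  obtain ⟨C, hC, h⟩ := mbb0_root2
  exact ⟨C, hC, fun n P hP hr => h n P hP (H347.root2_iff.2 hr)⟩

/-- **The black box for four moving slots, without heights** (`H855.mbb_mov0`) -/
theorem mov0 : ∃ C : ℝ, 0 ≤ C ∧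
    ∀ (n : ℕ) (P : ℝ), 0 ≤ P → H347.Root2 n P →
    ∀ o : ℤ, (o = 1 ∨ o = -1) → ∀ (w : ℕ × ℤ) (𝒲 : Finset (ℕ × ℤ)), w.1 ≤ n → Reg 𝒲 w →
    ∀ (A : Fin 4 → ℕ × ℤ → ℤ → ℝ) (S : Fin 4 → ℝ), (∀ j, 0 ≤ S j) →
      (∀ j, Slot0 𝒲 (A j) (S j)) → TT o 𝒲 A ≤ C * P * (∏ j, S j) * 2 ^ w.1 :=
  mbb_mov0 mbb0_root2

end Vale.Agent.P141.H393
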