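import Vale.Agent.P141.H393.Three

/-!
# P141, line W, scale invariant version: the moving black box without heights

Four block type slots; the slot `j` has at the node `N` the value `G j (T j N)`.  If the local `L²`
averages are `≤ α j ^ 2` then the sum over the nodes is at most
`24 * 1024 P 2 ^ K` times the maximum over `a ≠ b` of `(∏_{j ≠ b} α j) √(M a Λ b)`, where `M a` is the
measure of the tops of the slot `a` and `Λ b` the energy of the tops of the slot `b`.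
-/

namespace Vale.Agent.P141.H393

open Finset Vale.Agent.P141.PL.H855 Vale.Agent.P141.H845
open Vale.Agent.P141.PL.H571 (W mem_W mem_cell card_cell)
open Vale.Agent.P141.H319 (av av_add av_mul_left av_const av_mono av_nonneg av_sum rs av_rs_sq
  av_sg_mul)

/-- three local slots, one slot with its `L²` average on the window of the root -/
theorem three' {n : ℕ} {P : ℝ} (hP : 0 ≤ P) (hr : Root0 n P)
    {K : ℕ} (hK : K ≤ n) {V : ℤ} {f : Fin 4 → ℤ → ℝ} {o : ℤ} {𝒩 : Finset (ℕ × ℤ)}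
    (hf : ∀ j, (Function.support (f j)).Finite) (ho : o = 1 ∨ o = -1)
    (hroot : ∀ N ∈ 𝒩, 1 ≤ N.1 ∧ N.1 ≤ K ∧ N.2 / 2 ^ (K - N.1) = V)
    (hcl : ∀ N ∈ 𝒩, ∀ k', N.1 ≤ k' → k' ≤ K → (k', N.2 / 2 ^ (k' - N.1)) ∈ 𝒩)
    {α : Fin 4 → ℝ} (b : Fin 4) (hα : ∀ j, 0 < α j)
    (hloc : ∀ j, j ≠ b → ∀ N ∈ 𝒩, ∑ y ∈ W N.1 N.2, f j y ^ 2 ≤ α j ^ 2 * 2 ^ (N.1 + 5)) :
    ∑ N ∈ 𝒩, |wN o f N| ≤ 1024 * P * 2 ^ K * (∏ j ∈ univ.erase b, α j) *
      √((∑ y ∈ W K V, f b y ^ 2) / 2 ^ (K + 5)) := by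
  set β : ℝ := √((∑ y ∈ W K V, f b y ^ 2) / 2 ^ (K + 5)) with hβ
  have hS0 : 0 ≤ ∑ y ∈ W K V, f b y ^ 2 := sum_nonneg fun _ _ => sq_nonneg _
  have hβ0 : 0 ≤ β := Real.sqrt_nonneg _
  have hβsq : β ^ 2 * 2 ^ (K + 5) = ∑ y ∈ W K V, f b y ^ 2 := by
    rw [hβ, Real.sq_sqrt (by positivity)]
    field_simp
  have hA : 0 < ∏ j ∈ univ.erase b, α j := prod_pos fun j _ => hα j
  have key : ∀ δ : ℝ, 0 < δ → ∑ N ∈ 𝒩, |wN o f N| ≤
      1024 * P * 2 ^ K * (∏ j ∈ univ.erase b, α j) * (β + δ) := by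
    intro δ hδ
    have h1 := three hP hr K hK V f o 𝒩 hf ho hroot hcl (Function.update α b (β + δ)) b
      (fun j => by
        rcases eq_or_ne j b with rfl | h
        · rw [Function.update_self]; positivity
        · rw [Function.update_of_ne h]; exact hα j)
      (fun j hj N hN => by rw [Function.update_of_ne hj]; exact hloc j hj N hN)
      (by
        rw [Function.update_self, ← hβsq]
        refine mul_le_mul_of_nonneg_right ?_ (by positivity)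
        nlinarith)
    have h2 : ∏ j, (Function.update α b (β + δ)) j = (∏ j ∈ univ.erase b, α j) * (β + δ) := by
      rw [← mul_prod_erase univ _ (mem_univ b), Function.update_self, mul_comm]
      congr 1
      exact prod_congr rfl fun j hj => by rw [Function.update_of_ne (ne_of_mem_erase hj)]
    rw [h2] at h1
    linarith
  set A : ℝ := 1024 * P * 2 ^ K * (∏ j ∈ univ.erase b, α j) with hAdef
  have hA0 : 0 ≤ A := by positivity
  refine le_of_forall_pos_le_add fun ε hε => ?_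
  have h1 := key (ε / (A + 1)) (by positivity)
  refine h1.trans ?_
  rw [mul_add]
  have h2 : A * (ε / (A + 1)) ≤ ε := by
    rw [mul_div_assoc', div_le_iff₀ (by positivity)]
    nlinarith
  linarith

/-- the mean of a square root of a quadratic quantity -/
theorem av_sqrt_le {ι : Type*} [Fintype ι] [DecidableEq ι] (f : (ι → Bool) → ℝ)
    (hf : ∀ ε, 0 ≤ f ε) : av (fun ε => √(f ε)) ≤ √(av f) := by
  refine Real.le_sqrt_of_sq_le ?_
  have h1 := av_rpow_le (fun ε => √(f ε)) (fun ε => Real.sqrt_nonneg _) (p := 2) (by norm_num)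
  rw [Real.rpow_two] at h1
  refine h1.trans (le_of_eq ?_)
  congr 1
  funext ε
  rw [Real.rpow_two, Real.sq_sqrt (hf ε)]

/-- **three static local slots and one signed slot** -/
theorem one_signed {n : ℕ} {P : ℝ} (hP : 0 ≤ P) (hr : Root0 n P)
    {ι : Type} [Fintype ι] [DecidableEq ι] {K : ℕ} (hK : K ≤ n) {V : ℤ} {f : Fin 4 → ℤ → ℝ}
    {o : ℤ} {𝒩 𝒮 : Finset (ℕ × ℤ)} (b : Fin 4) (G : ι → ℤ → ℝ) (t : ℕ × ℤ → ι) (h𝒮 : 𝒮 ⊆ 𝒩)
    (hf : ∀ j, (Function.support (f j)).Finite) (hG : ∀ i, (Function.support (G i)).Finite)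
    (ho : o = 1 ∨ o = -1)
    (hroot : ∀ N ∈ 𝒩, 1 ≤ N.1 ∧ N.1 ≤ K ∧ N.2 / 2 ^ (K - N.1) = V)
    (hcl : ∀ N ∈ 𝒩, ∀ k', N.1 ≤ k' → k' ≤ K → (k', N.2 / 2 ^ (k' - N.1)) ∈ 𝒩)
    {α : Fin 4 → ℝ} (hα : ∀ j, 0 < α j)
    (hloc : ∀ j, j ≠ b → ∀ N ∈ 𝒩, ∑ y ∈ W N.1 N.2, f j y ^ 2 ≤ α j ^ 2 * 2 ^ (N.1 + 5)) :
    ∑ N ∈ 𝒮, |wN o (Function.update f b (G (t N))) N| ≤
      1024 * P * 2 ^ K * (∏ j ∈ univ.erase b, α j) *
        √((∑ i, ∑ y ∈ W K V, G i y ^ 2) / 2 ^ (K + 5)) := by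
  set A : ℝ := 1024 * P * 2 ^ K * (∏ j ∈ univ.erase b, α j) with hA
  have hA0 : 0 ≤ A := by
    have : 0 ≤ ∏ j ∈ univ.erase b, α j := prod_nonneg fun j _ => (hα j).le
    positivity
  have h1 : ∑ N ∈ 𝒮, |wN o (Function.update f b (G (t N))) N| ≤
      av fun ε : ι → Bool => ∑ N ∈ 𝒮, |wN o (Function.update f b (ss G ε)) N| := by
    refine (sum_le_sum fun N _ => abs_slot_le o f b G (t N) N).trans (le_of_eq ?_)
    rw [← av_sum]
  have h2 : ∀ ε : ι → Bool, ∑ N ∈ 𝒮, |wN o (Function.update f b (ss G ε)) N| ≤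
      A * √((∑ y ∈ W K V, ss G ε y ^ 2) / 2 ^ (K + 5)) := by
    intro ε
    refine (sum_le_sum_of_subset_of_nonneg h𝒮 fun _ _ _ => abs_nonneg _).trans ?_
    have h3 := three' hP hr hK (f := Function.update f b (ss G ε)) (𝒩 := 𝒩) (V := V)
      (fun j => by
        rcases eq_or_ne j b with rfl | h
        · rw [Function.update_self]; exact ss_supp G hG ε
        · rw [Function.update_of_ne h]; exact hf j) ho hroot hcl b hα
      (fun j hj N hN => by rw [Function.update_of_ne hj]; exact hloc j hj N hN)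
    rwa [Function.update_self] at h3
  have h3 : av (fun ε : ι → Bool => (∑ y ∈ W K V, ss G ε y ^ 2) / 2 ^ (K + 5)) =
      (∑ i, ∑ y ∈ W K V, G i y ^ 2) / 2 ^ (K + 5) := by
    have e : ∀ ε : ι → Bool, (∑ y ∈ W K V, ss G ε y ^ 2) / 2 ^ (K + 5) =
        (2 ^ (K + 5) : ℝ)⁻¹ * ∑ y ∈ W K V, ss G ε y ^ 2 := fun ε => by
      rw [div_eq_inv_mul]
    simp_rw [e]
    rw [av_mul_left, av_sum, div_eq_inv_mul]
    congr 1
    rw [sum_comm]
    refine sum_congr rfl fun y _ => ?_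
    have h4 := av_rs_sq (univ : Finset ι) (fun i => G i y)
    simpa only [← ss_eq_rs] using h4
  calc ∑ N ∈ 𝒮, |wN o (Function.update f b (G (t N))) N| ≤
        av fun ε : ι → Bool => A * √((∑ y ∈ W K V, ss G ε y ^ 2) / 2 ^ (K + 5)) :=
        h1.trans (av_mono h2)
    _ = A * av fun ε : ι → Bool => √((∑ y ∈ W K V, ss G ε y ^ 2) / 2 ^ (K + 5)) := by
        rw [av_mul_left]
    _ ≤ A * √(av fun ε : ι → Bool => (∑ y ∈ W K V, ss G ε y ^ 2) / 2 ^ (K + 5)) := by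
        refine mul_le_mul_of_nonneg_left (av_sqrt_le _ fun ε => ?_) hA0
        have : 0 ≤ ∑ y ∈ W K V, ss G ε y ^ 2 := sum_nonneg fun _ _ => sq_nonneg _
        positivity
    _ = _ := by rw [h3]

/-- **one order of the tops**: `b` lowest, then `a`, then `c`, `d` -/
theorem mbb0_order {n : ℕ} {P : ℝ} (hP : 0 ≤ P) (hr : Root0 n P)
    (G : Fin 4 → ℕ × ℤ → ℤ → ℝ) (T : Fin 4 → ℕ × ℤ → ℕ × ℤ)
    {o : ℤ} {K : ℕ} {V : ℤ} {𝒩 𝒮 : Finset (ℕ × ℤ)} (hT : ∀ j, Win 𝒩 (T j))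
    (hGs : ∀ j i, (Function.support (G j i)).Finite) (ho : o = 1 ∨ o = -1) (hK : K ≤ n)
    (hroot : ∀ N ∈ 𝒩, 1 ≤ N.1 ∧ N.1 ≤ K ∧ N.2 / 2 ^ (K - N.1) = V)
    (hcl : ∀ N ∈ 𝒩, ∀ k', N.1 ≤ k' → k' ≤ K → (k', N.2 / 2 ^ (k' - N.1)) ∈ 𝒩)
    {α : Fin 4 → ℝ} (hα : ∀ j, 0 < α j)
    (hloc : ∀ j, ∀ N ∈ 𝒩, ∑ y ∈ W N.1 N.2, G j (T j N) y ^ 2 ≤ α j ^ 2 * 2 ^ (N.1 + 5))
    {M Λ : ℝ} (a b c d : Fin 4) (hab : a ≠ b) (hac : a ≠ c) (had : a ≠ d) (hbc : b ≠ c)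
    (hbd : b ≠ d) (hcd : c ≠ d) (hall : ∀ j, j = a ∨ j = b ∨ j = c ∨ j = d)
    (hms : ∑ i ∈ tops 𝒩 (T a), (2 : ℝ) ^ i.1 ≤ M * 2 ^ K)
    (hen : ∑ i ∈ tops 𝒩 (T b), ∑ y ∈ W i.1 i.2, G b i y ^ 2 ≤ Λ * 2 ^ (K + 5)) (h𝒮 : 𝒮 ⊆ 𝒩)
    (hord : ∀ N ∈ 𝒮, (T b N).1 ≤ (T a N).1 ∧ (T a N).1 ≤ (T c N).1 ∧ (T a N).1 ≤ (T d N).1) :
    ∑ N ∈ 𝒮, |wN o (fun j => G j (T j N)) N| ≤
      1024 * P * 2 ^ K * (∏ j ∈ univ.erase b, α j) * √(M * Λ) := by
  classical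
  have hTa := hT a
  have hTb := hT b
  have hTc := hT c
  have hTd := hT d
  have hA0 : 0 ≤ ∏ j ∈ univ.erase b, α j := prod_nonneg fun j _ => (hα j).le
  -- the regions
  set R : ℕ × ℤ → Finset (ℕ × ℤ) := fun r => 𝒩.filter fun N =>
    Bel N r ∧ T a N = r ∧ T c N = T c r ∧ T d N = T d r with hRdef
  have hRmem : ∀ r N, N ∈ R r ↔ N ∈ 𝒩 ∧ Bel N r ∧ T a N = r ∧ T c N = T c r ∧ T d N = T d r :=
    fun r N => mem_filter
  -- energies in a region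
  set E : ℕ × ℤ → ℝ := fun r =>
    ∑ i ∈ (tops 𝒩 (T b)).filter (fun i => i ∈ R r), ∑ y ∈ W i.1 i.2, G b i y ^ 2 with hE
  have hE0 : ∀ r, 0 ≤ E r := fun r => sum_nonneg fun i _ => sum_nonneg fun y _ => sq_nonneg _
  -- one region
  have hone : ∀ r ∈ tops 𝒩 (T a), ∑ N ∈ 𝒮.filter (fun N => T a N = r),
      |wN o (fun j => G j (T j N)) N| ≤ 1024 * P * 2 ^ r.1 * (∏ j ∈ univ.erase b, α j) *
        √(E r / 2 ^ (r.1 + 5)) := by
    intro r hr'
    obtain ⟨hr𝒩, hrr⟩ := mem_tops.1 hr'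
    have hrc : Bel r (T c r) := hTc.bel r hr𝒩
    have hrd : Bel r (T d r) := hTd.bel r hr𝒩
    have hfib : ∀ N ∈ 𝒮, T a N = r → N ∈ R r := by
      intro N hN h1
      have hN' := h𝒮 hN
      obtain ⟨o1, o2, o3⟩ := hord N hN
      have hb : Bel N r := by rw [← h1]; exact hTa.bel N hN'
      rw [h1] at o2 o3
      refine (hRmem _ _).2 ⟨hN', hb, h1, ?_, ?_⟩
      · exact (hTc.conv N hN' r hr𝒩 hb (bel_of_le hb (hTc.bel N hN') o2)).symm
      · exact (hTd.conv N hN' r hr𝒩 hb (bel_of_le hb (hTd.bel N hN') o3)).symm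
    have hlow : ∀ N ∈ 𝒮, T a N = r → T b N ∈ tops 𝒩 (T b) ∧ T b N ∈ R r := by
      intro N hN h1
      have hN' := h𝒮 hN
      obtain ⟨_, hb, h2, h3, h4⟩ := (hRmem _ _).1 (hfib N hN h1)
      obtain ⟨o1, o2, o3⟩ := hord N hN
      have hbb := hTb.bel N hN'
      have hm := hTb.mem N hN'
      rw [h1] at o1
      have hir : Bel (T b N) r := bel_of_le hbb hb o1
      refine ⟨mem_tops.2 ⟨hm, hTb.top hN'⟩, (hRmem _ _).2 ⟨hm, hir, ?_, ?_, ?_⟩⟩
      · have h5 := hTa.conv N hN' _ hm hbb (by rw [h1]; exact hir)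
        rw [h5, h1]
      · have h5 := hTc.conv N hN' _ hm hbb (by rw [h3]; exact bel_trans hir hrc)
        rw [h5, h3]
      · have h5 := hTd.conv N hN' _ hm hbb (by rw [h4]; exact bel_trans hir hrd)
        rw [h5, h4]
    -- the signed functions
    let ι : Type := {i : ℕ × ℤ // i ∈ 𝒩}
    let g : ι → ℤ → ℝ := fun i =>
      if i.1 ∈ tops 𝒩 (T b) ∧ i.1 ∈ R r then cut i.1 (G b i.1) else 0
    let t : ℕ × ℤ → ι := fun N => if hj : T b N ∈ 𝒩 then ⟨T b N, hj⟩ else ⟨r, hr𝒩⟩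
    let f : Fin 4 → ℤ → ℝ := fun j =>
      if j = a then G a r else if j = c then G c (T c r) else if j = d then G d (T d r) else 0
    have hfa : f a = G a r := by simp only [f, if_true]
    have hfc : f c = G c (T c r) := by simp only [f, if_neg hac.symm, if_true]
    have hfd : f d = G d (T d r) := by simp only [f, if_neg had.symm, if_neg hcd.symm, if_true]
    have hgs : ∀ i, (Function.support (g i)).Finite := by
      intro i
      simp only [g]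
      split_ifs
      · exact cut_supp _ _
      · simp
    have hgE : ∑ i : ι, ∑ y ∈ W r.1 r.2, g i y ^ 2 ≤ E r := by
      have e1 : ∀ i : ι, ∑ y ∈ W r.1 r.2, g i y ^ 2 ≤
          if i.1 ∈ tops 𝒩 (T b) ∧ i.1 ∈ R r then ∑ y ∈ W i.1.1 i.1.2, G b i.1 y ^ 2 else 0 := by
        intro i
        simp only [g]
        split_ifs with h1
        · have h2 : W i.1.1 i.1.2 ⊆ W r.1 r.2 := bel_W_sub ((hRmem _ _).1 h1.2).2.1
          have h3 : ∑ y ∈ W r.1 r.2, cut i.1 (G b i.1) y ^ 2 =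
              ∑ y ∈ W i.1.1 i.1.2, cut i.1 (G b i.1) y ^ 2 := by
            symm
            refine sum_subset h2 fun y _ hy => ?_
            unfold cut
            rw [if_neg hy]
            norm_num
          rw [h3]
          refine sum_le_sum fun y hy => ?_
          rw [cut_of_mem hy]
        · simp
      refine (sum_le_sum fun i _ => e1 i).trans (le_of_eq ?_)
      have e2 : ∑ i : ι, (if i.1 ∈ tops 𝒩 (T b) ∧ i.1 ∈ R r then
          ∑ y ∈ W i.1.1 i.1.2, G b i.1 y ^ 2 else 0) =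
          ∑ i ∈ 𝒩, (if i ∈ tops 𝒩 (T b) ∧ i ∈ R r then ∑ y ∈ W i.1 i.2, G b i y ^ 2 else 0) :=
        sum_coe_sort 𝒩 fun i => if i ∈ tops 𝒩 (T b) ∧ i ∈ R r then
          ∑ y ∈ W i.1 i.2, G b i y ^ 2 else 0
      rw [e2, ← sum_filter, hE]
      refine sum_congr ?_ fun _ _ => rfl
      ext i
      simp only [mem_filter]
      constructor
      · rintro ⟨_, h2, h3⟩; exact ⟨h2, h3⟩
      · rintro ⟨h2, h3⟩; exact ⟨(mem_tops.1 h2).1, h2, h3⟩
    have hval : ∀ N ∈ 𝒮.filter (fun N => T a N = r),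
        |wN o (fun j => G j (T j N)) N| = |wN o (Function.update f b (g (t N))) N| := by
      intro N hN
      obtain ⟨hN1, hN2⟩ := mem_filter.1 hN
      have hN' := h𝒮 hN1
      have hNR := (hRmem _ _).1 (hfib N hN1 hN2)
      rw [wN_congr ho]
      intro j y hy
      rcases hall j with rfl | rfl | rfl | rfl
      · rw [Function.update_of_ne hab, hfa, hN2]
      · rw [Function.update_self]
        obtain ⟨h3, h4⟩ := hlow N hN1 hN2
        have e1 : t N = ⟨T j N, hTb.mem N hN'⟩ := by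
          simp only [t]
          rw [dif_pos (hTb.mem N hN')]
        rw [e1]
        simp only [g]
        rw [if_pos ⟨h3, h4⟩]
        exact (cut_of_mem (bel_W_sub (hTb.bel N hN') hy)).symm
      · rw [Function.update_of_ne hbc.symm, hfc, hNR.2.2.2.1]
      · rw [Function.update_of_ne hbd.symm, hfd, hNR.2.2.2.2]
    rw [sum_congr rfl hval]
    have hrK : r.1 ≤ K := (hroot r hr𝒩).2.1
    have h1 := one_signed hP hr (f := f) (𝒩 := R r) (𝒮 := 𝒮.filter fun N => T a N = r)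
      (K := r.1) (V := r.2) (hrK.trans hK) b g t
      (fun N hN => hfib N (mem_filter.1 hN).1 (mem_filter.1 hN).2)
      (by
        intro j
        simp only [f]
        split_ifs
        · exact hGs _ _
        · exact hGs _ _
        · exact hGs _ _
        · simp) hgs ho
      (fun N hN => by
        obtain ⟨h1, h2, _⟩ := (hRmem _ _).1 hN
        exact ⟨(hroot N h1).1, h2.1, h2.2⟩)
      (by
        intro N hN k' h1 h2
        obtain ⟨h3, h4, h5, h6, h7⟩ := (hRmem _ _).1 hN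
        have hM𝒩 : (k', N.2 / 2 ^ (k' - N.1)) ∈ 𝒩 := hcl N h3 k' h1 (h2.trans hrK)
        have hNM : Bel N (k', N.2 / 2 ^ (k' - N.1)) := ⟨h1, rfl⟩
        have hMr : Bel (k', N.2 / 2 ^ (k' - N.1)) r := bel_of_le hNM h4 h2
        refine (hRmem _ _).2 ⟨hM𝒩, hMr, ?_, ?_, ?_⟩
        · rw [hTa.conv N h3 _ hM𝒩 hNM (by rw [h5]; exact hMr), h5]
        · rw [hTc.conv N h3 _ hM𝒩 hNM (by rw [h6]; exact bel_trans hMr hrc), h6]
        · rw [hTd.conv N h3 _ hM𝒩 hNM (by rw [h7]; exact bel_trans hMr hrd), h7])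
      hα
      (by
        intro j hjb N hN
        obtain ⟨h3, h4, h5, h6, h7⟩ := (hRmem _ _).1 hN
        rcases hall j with rfl | h | rfl | rfl
        · rw [hfa]; have := hloc j N h3; rwa [h5] at this
        · exact absurd h hjb
        · rw [hfc, ← h6]; exact hloc j N h3
        · rw [hfd, ← h7]; exact hloc j N h3)
    refine h1.trans ?_
    refine mul_le_mul_of_nonneg_left (Real.sqrt_le_sqrt ?_) (by positivity)
    exact div_le_div_of_nonneg_right hgE (by positivity)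
  -- sum over the tops of the slot `a`
  have hsplit : ∑ N ∈ 𝒮, |wN o (fun j => G j (T j N)) N| =
      ∑ r ∈ tops 𝒩 (T a), ∑ N ∈ 𝒮.filter (fun N => T a N = r),
        |wN o (fun j => G j (T j N)) N| :=
    (sum_fiberwise_of_maps_to (fun N hN =>
      mem_tops.2 ⟨hTa.mem N (h𝒮 hN), hTa.top (h𝒮 hN)⟩) _).symm
  rw [hsplit]
  refine (sum_le_sum hone).trans ?_
  have hsumE : ∑ r ∈ tops 𝒩 (T a), E r ≤ Λ * 2 ^ (K + 5) := by
    refine le_trans ?_ hen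
    simp only [hE]
    rw [← sum_biUnion]
    · refine sum_le_sum_of_subset_of_nonneg (fun i hi => ?_) fun _ _ _ =>
        sum_nonneg fun _ _ => sq_nonneg _
      obtain ⟨r, _, h⟩ := mem_biUnion.1 hi
      exact (mem_filter.1 h).1
    · intro r _ r' _ hne
      refine disjoint_left.2 fun i hi hi' => hne ?_
      have h1 := ((hRmem _ _).1 (mem_filter.1 hi).2).2.2.1
      have h2 := ((hRmem _ _).1 (mem_filter.1 hi').2).2.2.1
      rw [← h1, ← h2]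
  have hterm : ∀ r ∈ tops 𝒩 (T a), 1024 * P * 2 ^ r.1 * (∏ j ∈ univ.erase b, α j) *
      √(E r / 2 ^ (r.1 + 5)) = (1024 * P * (∏ j ∈ univ.erase b, α j)) *
        (√((2 : ℝ) ^ r.1) * √(E r / 32)) := by
    intro r _
    have h1 : E r / 2 ^ (r.1 + 5) = (E r / 32) / 2 ^ r.1 := by
      rw [pow_add]; field_simp; norm_num
    have h2 : (2 : ℝ) ^ r.1 * √((E r / 32) / 2 ^ r.1) = √((2 : ℝ) ^ r.1) * √(E r / 32) := by
      rw [Real.sqrt_div (by have := hE0 r; positivity)]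
      have h3 : (0 : ℝ) < √((2 : ℝ) ^ r.1) := Real.sqrt_pos.2 (by positivity)
      have h4 : √((2 : ℝ) ^ r.1) * √((2 : ℝ) ^ r.1) = 2 ^ r.1 := Real.mul_self_sqrt (by positivity)
      rw [mul_div_assoc', div_eq_iff h3.ne']
      calc (2 : ℝ) ^ r.1 * √(E r / 32) = (√((2 : ℝ) ^ r.1) * √((2 : ℝ) ^ r.1)) * √(E r / 32) := by
            rw [h4]
        _ = _ := by ring
    rw [h1]
    calc _ = (1024 * P * (∏ j ∈ univ.erase b, α j)) * ((2 : ℝ) ^ r.1 * √((E r / 32) / 2 ^ r.1)) := by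
          ring
      _ = _ := by rw [h2]
  rw [sum_congr rfl hterm, ← mul_sum]
  have hcs : ∑ r ∈ tops 𝒩 (T a), √((2 : ℝ) ^ r.1) * √(E r / 32) ≤
      √(∑ r ∈ tops 𝒩 (T a), (2 : ℝ) ^ r.1) * √(∑ r ∈ tops 𝒩 (T a), E r / 32) :=
    Real.sum_sqrt_mul_sqrt_le _ (fun r => by positivity) (fun r => by have := hE0 r; positivity)
  have hM0 : 0 ≤ ∑ r ∈ tops 𝒩 (T a), (2 : ℝ) ^ r.1 := sum_nonneg fun _ _ => by positivity
  have hfin : √(∑ r ∈ tops 𝒩 (T a), (2 : ℝ) ^ r.1) * √(∑ r ∈ tops 𝒩 (T a), E r / 32) ≤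
      2 ^ K * √(M * Λ) := by
    rw [← sum_div]
    have h1 : (∑ r ∈ tops 𝒩 (T a), E r) / 32 ≤ Λ * 2 ^ K := by
      rw [div_le_iff₀ (by norm_num)]
      refine hsumE.trans (le_of_eq ?_)
      rw [pow_add]; ring
    have h2 : (2 : ℝ) ^ K * √(M * Λ) = √((M * 2 ^ K) * (Λ * 2 ^ K)) := by
      have h3 : (M * 2 ^ K) * (Λ * 2 ^ K) = (2 ^ K) ^ 2 * (M * Λ) := by ring
      rw [h3, Real.sqrt_mul (by positivity : (0 : ℝ) ≤ (2 ^ K) ^ 2) (M * Λ),
        Real.sqrt_sq (by positivity)]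
    rw [h2, ← Real.sqrt_mul hM0]
    refine Real.sqrt_le_sqrt ?_
    have hE0' : 0 ≤ (∑ r ∈ tops 𝒩 (T a), E r) / 32 :=
      div_nonneg (sum_nonneg fun r _ => hE0 r) (by norm_num)
    exact mul_le_mul hms h1 hE0' (hM0.trans hms)
  calc (1024 * P * (∏ j ∈ univ.erase b, α j)) *
        ∑ r ∈ tops 𝒩 (T a), √((2 : ℝ) ^ r.1) * √(E r / 32) ≤
        (1024 * P * (∏ j ∈ univ.erase b, α j)) * (2 ^ K * √(M * Λ)) :=
        mul_le_mul_of_nonneg_left (hcs.trans hfin) (by positivity)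
    _ = _ := by ring

/-- **THE MOVING BLACK BOX WITHOUT HEIGHTS.** -/
theorem mbb0 {n : ℕ} {P : ℝ} (hP : 0 ≤ P) (hr : Root0 n P)
    (G : Fin 4 → ℕ × ℤ → ℤ → ℝ) (T : Fin 4 → ℕ × ℤ → ℕ × ℤ)
    {o : ℤ} {K : ℕ} {V : ℤ} {𝒩 : Finset (ℕ × ℤ)} (hT : ∀ j, Win 𝒩 (T j))
    (hGs : ∀ j i, (Function.support (G j i)).Finite) (ho : o = 1 ∨ o = -1) (hK : K ≤ n)
    (hroot : ∀ N ∈ 𝒩, 1 ≤ N.1 ∧ N.1 ≤ K ∧ N.2 / 2 ^ (K - N.1) = V)
    (hcl : ∀ N ∈ 𝒩, ∀ k', N.1 ≤ k' → k' ≤ K → (k', N.2 / 2 ^ (k' - N.1)) ∈ 𝒩)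
    {α : Fin 4 → ℝ} (hα : ∀ j, 0 < α j)
    (hloc : ∀ j, ∀ N ∈ 𝒩, ∑ y ∈ W N.1 N.2, G j (T j N) y ^ 2 ≤ α j ^ 2 * 2 ^ (N.1 + 5))
    {M Λ : Fin 4 → ℝ}
    (hms : ∀ j, ∑ i ∈ tops 𝒩 (T j), (2 : ℝ) ^ i.1 ≤ M j * 2 ^ K)
    (hen : ∀ j, ∑ i ∈ tops 𝒩 (T j), ∑ y ∈ W i.1 i.2, G j i y ^ 2 ≤ Λ j * 2 ^ (K + 5))
    {A : ℝ} (hA : ∀ a b, a ≠ b → (∏ j ∈ univ.erase b, α j) * √(M a * Λ b) ≤ A) :
    ∑ N ∈ 𝒩, |wN o (fun j => G j (T j N)) N| ≤ 24576 * P * 2 ^ K * A := by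
  classical
  have hA0 : 0 ≤ A := by
    refine le_trans ?_ (hA 0 1 (by decide))
    have : 0 ≤ ∏ j ∈ univ.erase (1 : Fin 4), α j := prod_nonneg fun j _ => (hα j).le
    positivity
  -- the orders
  set S : Equiv.Perm (Fin 4) → Finset (ℕ × ℤ) := fun σ => 𝒩.filter fun N =>
    (T (σ 0) N).1 ≤ (T (σ 1) N).1 ∧ (T (σ 1) N).1 ≤ (T (σ 2) N).1 ∧
      (T (σ 1) N).1 ≤ (T (σ 3) N).1 with hS
  have hcov : ∀ N ∈ 𝒩, ∃ σ, N ∈ S σ := by
    intro N hN
    refine ⟨Tuple.sort fun j => (T j N).1, ?_⟩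
    have h := Tuple.monotone_sort fun j => (T j N).1
    simp only [hS]
    rw [mem_filter]
    exact ⟨hN, h (by decide : (0 : Fin 4) ≤ 1), h (by decide : (1 : Fin 4) ≤ 2),
      h (by decide : (1 : Fin 4) ≤ 3)⟩
  have h1 : ∑ N ∈ 𝒩, |wN o (fun j => G j (T j N)) N| ≤
      ∑ σ : Equiv.Perm (Fin 4), ∑ N ∈ S σ, |wN o (fun j => G j (T j N)) N| := by
    have h2 : ∀ N ∈ 𝒩, |wN o (fun j => G j (T j N)) N| ≤
        ∑ σ : Equiv.Perm (Fin 4), if N ∈ S σ then |wN o (fun j => G j (T j N)) N| else 0 := by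
      intro N hN
      obtain ⟨σ, hσ⟩ := hcov N hN
      refine le_trans (le_of_eq ?_) (single_le_sum (f := fun σ : Equiv.Perm (Fin 4) =>
        if N ∈ S σ then |wN o (fun j => G j (T j N)) N| else 0)
        (fun σ _ => by split_ifs <;> simp) (mem_univ σ))
      rw [if_pos hσ]
    refine (sum_le_sum h2).trans (le_of_eq ?_)
    rw [sum_comm]
    refine sum_congr rfl fun σ _ => ?_
    rw [← sum_filter]
    refine sum_congr ?_ fun _ _ => rfl
    ext N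
    simp only [mem_filter, hS]
    constructor
    · rintro ⟨_, h⟩; exact h
    · intro h; exact ⟨h.1, h⟩
  refine h1.trans ?_
  have h3 : ∀ σ : Equiv.Perm (Fin 4), ∑ N ∈ S σ, |wN o (fun j => G j (T j N)) N| ≤
      1024 * P * 2 ^ K * A := by
    intro σ
    have hne : ∀ i j : Fin 4, i ≠ j → σ i ≠ σ j := fun i j h h' => h (σ.injective h')
    have h4 := mbb0_order hP hr G T (𝒮 := S σ) hT hGs ho hK hroot hcl hα hloc
      (σ 1) (σ 0) (σ 2) (σ 3) (hne _ _ (by decide)) (hne _ _ (by decide)) (hne _ _ (by decide))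
      (hne _ _ (by decide)) (hne _ _ (by decide)) (hne _ _ (by decide)) (by
        intro j
        obtain ⟨i, rfl⟩ := σ.surjective j
        fin_cases i <;> simp) (hms (σ 1)) (hen (σ 0)) (filter_subset _ _)
      (fun N hN => (mem_filter.1 hN).2)
    refine h4.trans ?_
    rw [mul_assoc (1024 * P * 2 ^ K)]
    exact mul_le_mul_of_nonneg_left (hA _ _ (hne _ _ (by decide))) (by positivity)
  refine (sum_le_sum fun σ _ => h3 σ).trans (le_of_eq ?_)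
  rw [sum_const, card_univ, Fintype.card_perm, Fintype.card_fin, nsmul_eq_mul]
  simp only [Nat.factorial]
  push_cast
  ring

end Vale.Agent.P141.H393
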