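import Vale.Agent.P141.H393.Mbb0
import Vale.Agent.P141.H347.Boot2

/-!
# P141, line W, scale invariant version: the moving black box in the frame `H347.Root2`
-/

namespace Vale.Agent.P141.H393

open Finset Vale.Agent.P141.PL.H855 Vale.Agent.P141.H845
open Vale.Agent.P141.PL.H571 (W mem_W mem_cell card_cell)

theorem root0_iff {n : ℕ} {P : ℝ} : Root0 n P ↔ H347.Root2 n P := by
  constructor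
  · intro h
    exact H347.root2_iff.2 (rootQ_of_root0 h)
  · intro h
    exact root0_of_rootQ (H347.root2_iff.1 h)

/-- a static slot: its window is the root -/
theorem win_root {K : ℕ} {V : ℤ} {𝒩 : Finset (ℕ × ℤ)}
    (hroot : ∀ N ∈ 𝒩, 1 ≤ N.1 ∧ N.1 ≤ K ∧ N.2 / 2 ^ (K - N.1) = V)
    (hcl : ∀ N ∈ 𝒩, ∀ k', N.1 ≤ k' → k' ≤ K → (k', N.2 / 2 ^ (k' - N.1)) ∈ 𝒩) :
    Win 𝒩 (fun _ => (K, V)) where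
  mem N hN := by
    obtain ⟨_, h2, h3⟩ := hroot N hN
    have h4 := hcl N hN K h2 le_rfl
    rwa [h3] at h4
  bel N hN := ⟨(hroot N hN).2.1, (hroot N hN).2.2⟩
  conv N _ M _ _ _ := rfl

/-- **The black box for static slots**: three local sizes, one global size -/
theorem three2 {n : ℕ} {P : ℝ} (hP : 0 ≤ P) (hr : H347.Root2 n P)
    {K : ℕ} (hK : K ≤ n) {V : ℤ} {f : Fin 4 → ℤ → ℝ} {o : ℤ} {𝒩 : Finset (ℕ × ℤ)}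
    (hf : ∀ j, (Function.support (f j)).Finite) (ho : o = 1 ∨ o = -1)
    (hroot : ∀ N ∈ 𝒩, 1 ≤ N.1 ∧ N.1 ≤ K ∧ N.2 / 2 ^ (K - N.1) = V)
    (hcl : ∀ N ∈ 𝒩, ∀ k', N.1 ≤ k' → k' ≤ K → (k', N.2 / 2 ^ (k' - N.1)) ∈ 𝒩)
    {α : Fin 4 → ℝ} (b : Fin 4) (hα : ∀ j, 0 < α j)
    (hloc : ∀ j, j ≠ b → ∀ N ∈ 𝒩, ∑ y ∈ W N.1 N.2, f j y ^ 2 ≤ α j ^ 2 * 2 ^ (N.1 + 5)) :
    ∑ N ∈ 𝒩, |wN o f N| ≤ 1024 * P * 2 ^ K * (∏ j ∈ univ.erase b, α j) *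
      √((∑ y ∈ W K V, f b y ^ 2) / 2 ^ (K + 5)) :=
  three' hP (root0_iff.2 hr) hK hf ho hroot hcl b hα hloc

/-- **THE MOVING BLACK BOX WITHOUT HEIGHTS**, frame `H347.Root2` -/
theorem mbb2 {n : ℕ} {P : ℝ} (hP : 0 ≤ P) (hr : H347.Root2 n P)
    (G : Fin 4 → ℕ × ℤ → ℤ → ℝ) (T : Fin 4 → ℕ × ℤ → ℕ × ℤ)
    {o : ℤ} {K : ℕ} {V : ℤ} {𝒩 : Finset (ℕ × ℤ)} (hT : ∀ j, Win 𝒩 (T j))
    (hGs : ∀ j i, (Function.support (G j i)).Finite) (ho : o = 1 ∨ o = -1) (hK : K ≤ n)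
    (hroot : ∀ N ∈ 𝒩, 1 ≤ N.1 ∧ N.1 ≤ K ∧ N.2 / 2 ^ (K - N.1) = V)
    (hcl : ∀ N ∈ 𝒩, ∀ k', N.1 ≤ k' → k' ≤ K → (k', N.2 / 2 ^ (k' - N.1)) ∈ 𝒩)
    {α : Fin 4 → ℝ} (hα : ∀ j, 0 < α j)
    (hloc : ∀ j, ∀ N ∈ 𝒩, ∑ y ∈ W N.1 N.2, G j (T j N) y ^ 2 ≤ α j ^ 2 * 2 ^ (N.1 + 5))
    {M Λ : Fin 4 → ℝ}
    (hms : ∀ j, ∑ i ∈ tops 𝒩 (T j), (2 : ℝ) ^ i.1 ≤ M j * 2 ^ K)
    (hen : ∀ j, ∑ i ∈ tops 𝒩 (T j), ∑ y ∈ W i.1 i.2, G j i y ^ 2 ≤ Λ j * 2 ^ (K + 5))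
    {A : ℝ} (hA : ∀ a b, a ≠ b → (∏ j ∈ univ.erase b, α j) * √(M a * Λ b) ≤ A) :
    ∑ N ∈ 𝒩, |wN o (fun j => G j (T j N)) N| ≤ 24576 * P * 2 ^ K * A :=
  mbb0 hP (root0_iff.2 hr) G T hT hGs ho hK hroot hcl hα hloc hms hen hA

/-- the form with local sizes and measures only: `Λ j = α j ^ 2 * M j` -/
theorem mbb2_geom {n : ℕ} {P : ℝ} (hP : 0 ≤ P) (hr : H347.Root2 n P)
    (G : Fin 4 → ℕ × ℤ → ℤ → ℝ) (T : Fin 4 → ℕ × ℤ → ℕ × ℤ)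
    {o : ℤ} {K : ℕ} {V : ℤ} {𝒩 : Finset (ℕ × ℤ)} (hT : ∀ j, Win 𝒩 (T j))
    (hGs : ∀ j i, (Function.support (G j i)).Finite) (ho : o = 1 ∨ o = -1) (hK : K ≤ n)
    (hroot : ∀ N ∈ 𝒩, 1 ≤ N.1 ∧ N.1 ≤ K ∧ N.2 / 2 ^ (K - N.1) = V)
    (hcl : ∀ N ∈ 𝒩, ∀ k', N.1 ≤ k' → k' ≤ K → (k', N.2 / 2 ^ (k' - N.1)) ∈ 𝒩)
    {α : Fin 4 → ℝ} (hα : ∀ j, 0 < α j)
    (hloc : ∀ j, ∀ N ∈ 𝒩, ∑ y ∈ W N.1 N.2, G j (T j N) y ^ 2 ≤ α j ^ 2 * 2 ^ (N.1 + 5))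
    {M : Fin 4 → ℝ} (hM : ∀ j, 0 ≤ M j)
    (hms : ∀ j, ∑ i ∈ tops 𝒩 (T j), (2 : ℝ) ^ i.1 ≤ M j * 2 ^ K)
    {A : ℝ} (hA : ∀ a b, a ≠ b → (∏ j, α j) * √(M a * M b) ≤ A) :
    ∑ N ∈ 𝒩, |wN o (fun j => G j (T j N)) N| ≤ 24576 * P * 2 ^ K * A := by
  refine mbb2 hP hr G T hT hGs ho hK hroot hcl hα hloc (Λ := fun j => α j ^ 2 * M j) hms
    (fun j => ?_) fun a b hab => ?_
  · have h1 : ∀ i ∈ tops 𝒩 (T j), ∑ y ∈ W i.1 i.2, G j i y ^ 2 ≤ α j ^ 2 * 32 * 2 ^ i.1 := by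
      intro i hi
      obtain ⟨h2, h3⟩ := mem_tops.1 hi
      have h4 := hloc j i h2
      rw [h3] at h4
      refine h4.trans (le_of_eq ?_)
      rw [pow_add]; ring
    refine (sum_le_sum h1).trans ?_
    rw [← mul_sum]
    refine (mul_le_mul_of_nonneg_left (hms j) (by positivity)).trans (le_of_eq ?_)
    rw [pow_add]; ring
  · refine le_trans (le_of_eq ?_) (hA a b hab)
    have h1 : M a * (α b ^ 2 * M b) = α b ^ 2 * (M a * M b) := by ring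
    rw [h1, Real.sqrt_mul (sq_nonneg _), Real.sqrt_sq (hα b).le,
      ← mul_prod_erase univ α (mem_univ b)]
    ring

end Vale.Agent.P141.H393
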