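import Vale.Agent.P141.H393.Weak

/-!
# P141, line W, scale invariant version: three local slots and one global slot

`Root0 n P`: the root estimate for functions whose window `L²` averages are `≤ 1` on the closure, no
bound on the height.  `three`: then three slots with local `L²` averages `≤ α j ^ 2` and one slot
with only the `L²` average `≤ α b ^ 2` on the window of the root give `≤ C P 2 ^ K ∏ α j`.
-/

namespace Vale.Agent.P141.H393

open Finset Vale.Agent.P141.PL.H855 Vale.Agent.P141.H845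
open Vale.Agent.P141.PL.H571 (W mem_W mem_cell card_cell)

/-- admissible data, `L²` sizes, no height -/
structure Dat0 (n : ℕ) (f : Fin 4 → ℤ → ℝ) (o : ℤ) (K : ℕ) (V : ℤ) (𝒩 : Finset (ℕ × ℤ)) :
    Prop where
  supp : ∀ j, (Function.support (f j)).Finite
  ho : o = 1 ∨ o = -1
  hK : K ≤ n
  root : ∀ N ∈ 𝒩, 1 ≤ N.1 ∧ N.1 ≤ K ∧ N.2 / 2 ^ (K - N.1) = V
  cl : ∀ N ∈ 𝒩, ∀ k', N.1 ≤ k' → k' ≤ K → (k', N.2 / 2 ^ (k' - N.1)) ∈ 𝒩
  l2 : ∀ N ∈ 𝒩, ∀ j, ∑ y ∈ W N.1 N.2, f j y ^ 2 ≤ 2 ^ (N.1 + 5)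

/-- the root estimate, `L²` sizes, no height -/
def Root0 (n : ℕ) (P : ℝ) : Prop :=
  ∀ f o K V 𝒩, Dat0 n f o K V 𝒩 → ∑ N ∈ 𝒩, |wN o f N| ≤ P * 2 ^ K

theorem rootQ_of_root0 {n : ℕ} {P : ℝ} (h : Root0 n P) : H337.RootQ 2 n P := by
  intro f hf o ho K hK V 𝒩 hroot hcl hq
  have h1 := h f o K V 𝒩 ⟨hf, ho, hK, hroot, hcl, fun N hN j => by
    refine (le_of_eq (sum_congr rfl fun y _ => ?_)).trans (hq N hN j)
    rw [Real.rpow_two, sq_abs]⟩
  refine (le_of_eq (sum_congr rfl fun N _ => ?_)).trans h1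
  unfold wN
  rw [abs_mul, abs_of_pos (by positivity : (0 : ℝ) < ((4 : ℝ) ^ N.1)⁻¹)]

theorem root0_of_rootQ {n : ℕ} {P : ℝ} (h : H337.RootQ 2 n P) : Root0 n P := by
  intro f o K V 𝒩 hd
  refine (le_of_eq (sum_congr rfl fun N _ => ?_)).trans
    (h f hd.supp o hd.ho K hd.hK V 𝒩 hd.root hd.cl fun N hN j => ?_)
  · unfold wN
    rw [abs_mul, abs_of_pos (by positivity : (0 : ℝ) < ((4 : ℝ) ^ N.1)⁻¹)]
  · refine (le_of_eq (sum_congr rfl fun y _ => ?_)).trans (hd.l2 N hN j)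
    rw [Real.rpow_two, sq_abs]

theorem Root0.mono {n : ℕ} {P P' : ℝ} (h : Root0 n P) (hP : P ≤ P') : Root0 n P' :=
  fun f o K V 𝒩 hd => (h f o K V 𝒩 hd).trans (by gcongr)

/-- the root estimate with sizes `α j` -/
theorem Root0.scaled {n : ℕ} {P : ℝ} (h : Root0 n P) {f : Fin 4 → ℤ → ℝ} {o : ℤ} {K : ℕ}
    {V : ℤ} {𝒩 : Finset (ℕ × ℤ)} (hf : ∀ j, (Function.support (f j)).Finite)
    (ho : o = 1 ∨ o = -1) (hK : K ≤ n)
    (hroot : ∀ N ∈ 𝒩, 1 ≤ N.1 ∧ N.1 ≤ K ∧ N.2 / 2 ^ (K - N.1) = V)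
    (hcl : ∀ N ∈ 𝒩, ∀ k', N.1 ≤ k' → k' ≤ K → (k', N.2 / 2 ^ (k' - N.1)) ∈ 𝒩)
    {α : Fin 4 → ℝ} (hα : ∀ j, 0 < α j)
    (hl2 : ∀ N ∈ 𝒩, ∀ j, ∑ y ∈ W N.1 N.2, f j y ^ 2 ≤ α j ^ 2 * 2 ^ (N.1 + 5)) :
    ∑ N ∈ 𝒩, |wN o f N| ≤ P * 2 ^ K * ∏ j, α j := by
  have h1 := h (fun j x => (α j)⁻¹ * f j x) o K V 𝒩 ⟨fun j => ?_, ho, hK, hroot, hcl, ?_⟩
  · have h2 : ∀ N, |wN o f N| = (∏ j, α j) * |wN o (fun j x => (α j)⁻¹ * f j x) N| := by
      intro N
      have e : f = fun j x => α j * ((α j)⁻¹ * f j x) := by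
        funext j x
        rw [mul_inv_cancel_left₀ (hα _).ne']
      conv_lhs => rw [e]
      rw [wN_smul, abs_mul, abs_of_pos (prod_pos fun j _ => hα j)]
    rw [sum_congr rfl fun N _ => h2 N, ← mul_sum, mul_comm]
    exact mul_le_mul_of_nonneg_right h1 (prod_pos fun j _ => hα j).le
  · refine (hf j).subset fun x hx => ?_
    simp only [Function.mem_support] at hx ⊢
    intro h0
    apply hx
    rw [h0, mul_zero]
  · intro N hN j
    have h2 : ∑ y ∈ W N.1 N.2, ((α j)⁻¹ * f j y) ^ 2 =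
        ((α j)⁻¹) ^ 2 * ∑ y ∈ W N.1 N.2, f j y ^ 2 := by
      rw [mul_sum]
      exact sum_congr rfl fun y _ => by ring
    rw [h2]
    refine (mul_le_mul_of_nonneg_left (hl2 N hN j) (by positivity)).trans (le_of_eq ?_)
    rw [← mul_assoc, ← mul_pow, inv_mul_cancel₀ (hα j).ne', one_pow, one_mul]

/-- **three local slots, one global slot** -/
theorem three {n : ℕ} {P : ℝ} (hP : 0 ≤ P) (hr : Root0 n P) :
    ∀ (K : ℕ), K ≤ n → ∀ (V : ℤ) (f : Fin 4 → ℤ → ℝ) (o : ℤ) (𝒩 : Finset (ℕ × ℤ)),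
    (∀ j, (Function.support (f j)).Finite) → (o = 1 ∨ o = -1) →
    (∀ N ∈ 𝒩, 1 ≤ N.1 ∧ N.1 ≤ K ∧ N.2 / 2 ^ (K - N.1) = V) →
    (∀ N ∈ 𝒩, ∀ k', N.1 ≤ k' → k' ≤ K → (k', N.2 / 2 ^ (k' - N.1)) ∈ 𝒩) →
    ∀ (α : Fin 4 → ℝ) (b : Fin 4), (∀ j, 0 < α j) →
    (∀ j, j ≠ b → ∀ N ∈ 𝒩, ∑ y ∈ W N.1 N.2, f j y ^ 2 ≤ α j ^ 2 * 2 ^ (N.1 + 5)) →
    (∑ y ∈ W K V, f b y ^ 2 ≤ α b ^ 2 * 2 ^ (K + 5)) →
    ∑ N ∈ 𝒩, |wN o f N| ≤ 1024 * P * 2 ^ K * ∏ j, α j := by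
  classical
  intro K
  induction K using Nat.strong_induction_on with
  | _ K ih =>
  intro hK V f o 𝒩 hf ho hroot hcl α b hα hloc hglob
  have hprod0 : 0 < ∏ j, α j := prod_pos fun j _ => hα j
  -- the stopped nodes
  set S : Finset (ℕ × ℤ) := 𝒩.filter fun N =>
    2 ^ 18 * α b ^ 2 * 2 ^ (N.1 + 5) < ∑ y ∈ W N.1 N.2, f b y ^ 2 with hS
  have hSmem : ∀ N, N ∈ S ↔ N ∈ 𝒩 ∧
      2 ^ 18 * α b ^ 2 * 2 ^ (N.1 + 5) < ∑ y ∈ W N.1 N.2, f b y ^ 2 := fun N => mem_filter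
  -- maximal stopped nodes
  set X : Finset (ℕ × ℤ) := S.filter fun M => ∀ M' ∈ S, Bel M M' → M = M' with hX
  have hXmem : ∀ M, M ∈ X ↔ M ∈ S ∧ ∀ M' ∈ S, Bel M M' → M = M' := fun M => mem_filter
  have hαb2 : 0 < α b ^ 2 := pow_pos (hα b) 2
  have hnotroot : ∀ M ∈ S, M.1 < K := by
    intro M hM
    obtain ⟨h1, h2⟩ := (hSmem M).1 hM
    obtain ⟨_, h3, h4⟩ := hroot M h1
    refine lt_of_le_of_ne h3 fun h5 => ?_
    rw [h5, Nat.sub_self, pow_zero, Int.ediv_one] at h4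
    rw [h5, h4] at h2
    have h6 : (0 : ℝ) < 2 ^ (K + 5) := by positivity
    have h7 : 0 < α b ^ 2 * 2 ^ (K + 5) := by positivity
    nlinarith
  -- every stopped node is below a maximal one
  have hmaxex : ∀ N ∈ S, ∃ M ∈ X, Bel N M := by
    intro N hN
    have hne : (S.filter fun M => Bel N M).Nonempty := ⟨N, mem_filter.2 ⟨hN, bel_refl N⟩⟩
    obtain ⟨M, hM, hmax⟩ := (S.filter fun M => Bel N M).exists_max_image (fun M => M.1) hne
    obtain ⟨hM1, hM2⟩ := mem_filter.1 hM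
    refine ⟨M, (hXmem M).2 ⟨hM1, fun M' hM' hb => ?_⟩, hM2⟩
    have h1 := hmax M' (mem_filter.2 ⟨hM', bel_trans hM2 hb⟩)
    exact bel_eq hM2 (bel_trans hM2 hb) (le_antisymm hb.1 h1)
  -- the good part
  set Gd : Finset (ℕ × ℤ) := 𝒩.filter fun N => ∀ M ∈ S, ¬ Bel N M with hGd
  have hGdmem : ∀ N, N ∈ Gd ↔ N ∈ 𝒩 ∧ ∀ M ∈ S, ¬ Bel N M := fun N => mem_filter
  set α' : Fin 4 → ℝ := Function.update α b (512 * α b) with hα'
  have hα'pos : ∀ j, 0 < α' j := by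
    intro j
    simp only [hα']
    rcases eq_or_ne j b with rfl | h
    · rw [Function.update_self]; have := hα j; positivity
    · rw [Function.update_of_ne h]; exact hα j
  have hprodup : ∀ c : ℝ, ∏ j, (Function.update α b (c * α b)) j = c * ∏ j, α j := by
    intro c
    rw [← mul_prod_erase univ _ (mem_univ b), ← mul_prod_erase univ α (mem_univ b),
      Function.update_self, mul_assoc]
    congr 2
    exact prod_congr rfl fun j hj => by rw [Function.update_of_ne (ne_of_mem_erase hj)]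
  have hgood : ∑ N ∈ Gd, |wN o f N| ≤ P * 2 ^ K * (512 * ∏ j, α j) := by
    have h1 := hr.scaled (f := f) (𝒩 := Gd) hf ho hK (V := V)
      (fun N hN => hroot N ((hGdmem N).1 hN).1)
      (fun N hN k' h1 h2 => by
        obtain ⟨h3, h4⟩ := (hGdmem N).1 hN
        refine (hGdmem _).2 ⟨hcl N h3 k' h1 h2, fun M hM hb => h4 M hM (bel_trans ⟨h1, rfl⟩ hb)⟩)
      hα'pos (fun N hN j => by
        obtain ⟨h3, h4⟩ := (hGdmem N).1 hN
        simp only [hα']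
        rcases eq_or_ne j b with rfl | h
        · rw [Function.update_self]
          have h5 : N ∉ S := fun h6 => h4 N h6 (bel_refl N)
          rw [hSmem] at h5
          push Not at h5
          refine (h5 h3).trans (le_of_eq ?_)
          ring
        · rw [Function.update_of_ne h]; exact hloc j h N h3)
    rwa [hα', hprodup] at h1
  -- one maximal stopped node
  have hone : ∀ M ∈ X, ∑ N ∈ 𝒩.filter (fun N => Bel N M), |wN o f N| ≤
      1024 * P * 2 ^ M.1 * (1024 * ∏ j, α j) := by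
    intro M hM
    obtain ⟨hMS, hMmax⟩ := (hXmem M).1 hM
    obtain ⟨hM𝒩, _⟩ := (hSmem M).1 hMS
    have hMK := hnotroot M hMS
    have h1 := ih M.1 hMK (hMK.le.trans hK) M.2 f o (𝒩.filter fun N => Bel N M) hf ho
      (fun N hN => by
        obtain ⟨h1, h2⟩ := mem_filter.1 hN
        exact ⟨(hroot N h1).1, h2.1, h2.2⟩)
      (fun N hN k' h1 h2 => by
        obtain ⟨h3, h4⟩ := mem_filter.1 hN
        refine mem_filter.2 ⟨hcl N h3 k' h1 (h2.trans hMK.le), ?_⟩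
        exact bel_of_le ⟨h1, rfl⟩ h4 h2)
      (Function.update α b (1024 * α b)) b (fun j => by
        rcases eq_or_ne j b with rfl | h
        · rw [Function.update_self]; have := hα j; positivity
        · rw [Function.update_of_ne h]; exact hα j)
      (fun j hj N hN => by
        rw [Function.update_of_ne hj]
        exact hloc j hj N (mem_filter.1 hN).1) (by
        rw [Function.update_self]
        -- the parent is not stopped
        have hpar : (M.1 + 1, M.2 / 2 ^ (M.1 + 1 - M.1)) ∈ 𝒩 :=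
          hcl M hM𝒩 (M.1 + 1) (Nat.le_succ _) hMK
        have hparS : (M.1 + 1, M.2 / 2 ^ (M.1 + 1 - M.1)) ∉ S := by
          intro h2
          have h3 := hMmax _ h2 ⟨Nat.le_succ _, rfl⟩
          have h4 := congrArg Prod.fst h3
          simp at h4
        rw [hSmem] at hparS
        push Not at hparS
        have h2 := hparS hpar
        have h3 : ∑ y ∈ W M.1 M.2, f b y ^ 2 ≤
            ∑ y ∈ W (M.1 + 1) (M.2 / 2 ^ (M.1 + 1 - M.1)), f b y ^ 2 :=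
          sum_le_sum_of_subset_of_nonneg (W_sub (Nat.le_succ _) _) fun _ _ _ => sq_nonneg _
        have h4 : (0 : ℝ) < α b ^ 2 * 2 ^ (M.1 + 5) := by positivity
        calc ∑ y ∈ W M.1 M.2, f b y ^ 2 ≤ 2 ^ 18 * α b ^ 2 * 2 ^ (M.1 + 1 + 5) := h3.trans h2
          _ = 2 ^ 19 * (α b ^ 2 * 2 ^ (M.1 + 5)) := by ring
          _ ≤ 2 ^ 20 * (α b ^ 2 * 2 ^ (M.1 + 5)) := by linarith
          _ = (1024 * α b) ^ 2 * 2 ^ (M.1 + 5) := by ring)
    rwa [hprodup] at h1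
  -- the measure of the maximal stopped nodes
  have hmeas : ∑ M ∈ X, (2 : ℝ) ^ M.1 ≤ 66 / 2 ^ 18 * 2 ^ K := by
    have hincX : ∀ M ∈ X, ∀ M' ∈ X, Bel M M' → M = M' := fun M hM M' hM' hb =>
      ((hXmem M).1 hM).2 M' ((hXmem M').1 hM').1 hb
    have h1 := vitali (fun y => f b y ^ 2) (fun y => sq_nonneg _)
      (τ := 2 ^ 18 * α b ^ 2 * 2 ^ 5) (by positivity) X.card X le_rfl hincX
      (fun M hM => by
        have h2 := ((hSmem M).1 ((hXmem M).1 hM).1).2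
        refine le_trans (le_of_eq ?_) h2.le
        rw [pow_add]
        ring) (W K V) (fun M hM => by
        have h2 := ((hSmem M).1 ((hXmem M).1 hM).1).1
        obtain ⟨_, h3, h4⟩ := hroot M h2
        rw [← h4]
        exact W_sub h3 M.2)
    have h2 := h1.trans (mul_le_mul_of_nonneg_left hglob (by norm_num))
    have h3 : (0 : ℝ) < α b ^ 2 * 2 ^ 5 := by positivity
    have h4 : (α b ^ 2 * 2 ^ 5) * (2 ^ 18 * ∑ M ∈ X, (2 : ℝ) ^ M.1) ≤
        (α b ^ 2 * 2 ^ 5) * (66 * 2 ^ K) := by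
      calc _ = 2 ^ 18 * α b ^ 2 * 2 ^ 5 * ∑ M ∈ X, (2 : ℝ) ^ M.1 := by ring
        _ ≤ 66 * (α b ^ 2 * 2 ^ (K + 5)) := h2
        _ = _ := by rw [pow_add]; ring
    have h5 := le_of_mul_le_mul_left h4 h3
    rw [div_mul_eq_mul_div, le_div_iff₀ (by positivity)]
    linarith
  -- splitting
  have hcover : ∑ N ∈ 𝒩, |wN o f N| ≤ ∑ N ∈ Gd, |wN o f N| +
      ∑ M ∈ X, ∑ N ∈ 𝒩.filter (fun N => Bel N M), |wN o f N| := by
    have h1 : ∑ N ∈ 𝒩, |wN o f N| = ∑ N ∈ Gd, |wN o f N| +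
        ∑ N ∈ 𝒩.filter (fun N => ¬ ∀ M ∈ S, ¬ Bel N M), |wN o f N| :=
      (sum_filter_add_sum_filter_not 𝒩 _ _).symm
    rw [h1]
    refine add_le_add le_rfl ?_
    have h2 : 𝒩.filter (fun N => ¬ ∀ M ∈ S, ¬ Bel N M) ⊆
        X.biUnion fun M => 𝒩.filter fun N => Bel N M := by
      intro N hN
      obtain ⟨h3, h4⟩ := mem_filter.1 hN
      push Not at h4
      obtain ⟨M, hM, hb⟩ := h4
      obtain ⟨M', hM', hb'⟩ := hmaxex M hM
      exact mem_biUnion.2 ⟨M', hM', mem_filter.2 ⟨h3, bel_trans hb hb'⟩⟩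
    refine (sum_le_sum_of_subset_of_nonneg h2 fun _ _ _ => abs_nonneg _).trans ?_
    exact sum_biUnion_le _ _ _ fun _ => abs_nonneg _
  have hbad : ∑ M ∈ X, ∑ N ∈ 𝒩.filter (fun N => Bel N M), |wN o f N| ≤
      (1024 * P * (1024 * ∏ j, α j)) * (66 / 2 ^ 18 * 2 ^ K) := by
    refine (sum_le_sum hone).trans ?_
    have e : ∀ M ∈ X, 1024 * P * 2 ^ M.1 * (1024 * ∏ j, α j) =
        (1024 * P * (1024 * ∏ j, α j)) * 2 ^ M.1 := fun M _ => by ring
    rw [sum_congr rfl e, ← mul_sum]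
    exact mul_le_mul_of_nonneg_left hmeas (by positivity)
  have hfin : 0 ≤ P * 2 ^ K * ∏ j, α j := by positivity
  calc ∑ N ∈ 𝒩, |wN o f N| ≤ P * 2 ^ K * (512 * ∏ j, α j) +
        (1024 * P * (1024 * ∏ j, α j)) * (66 / 2 ^ 18 * 2 ^ K) :=
        hcover.trans (add_le_add hgood hbad)
    _ = (512 + 264) * (P * 2 ^ K * ∏ j, α j) := by ring
    _ ≤ 1024 * (P * 2 ^ K * ∏ j, α j) := mul_le_mul_of_nonneg_right (by norm_num) hfin
    _ = _ := by ring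

end Vale.Agent.P141.H393
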