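import Vale.Agent.P141.H845.Mbb
import Vale.Agent.P141.H337.RootQ

/-!
# P141, line W, scale invariant version: weak type bound for the windows

`vitali`: incomparable cells whose windows carry at least `τ` times the length of the cell have
total length at most `66 τ⁻¹` times the total mass.
-/

namespace Vale.Agent.P141.H393

open Finset Vale.Agent.P141.PL.H855 Vale.Agent.P141.H845
open Vale.Agent.P141.PL.H571 (W mem_W mem_cell card_cell)

theorem sum_biUnion_le {ι κ : Type*} [DecidableEq ι] [DecidableEq κ] (X : Finset ι)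
    (F : ι → Finset κ) (g : κ → ℝ) (hg : ∀ x, 0 ≤ g x) :
    ∑ x ∈ X.biUnion F, g x ≤ ∑ i ∈ X, ∑ x ∈ F i, g x := by
  induction X using Finset.induction_on with
  | empty => simp
  | insert a s ha ih =>
    rw [biUnion_insert, sum_insert ha]
    have h1 : ∑ x ∈ F a ∪ s.biUnion F, g x ≤ ∑ x ∈ F a, g x + ∑ x ∈ s.biUnion F, g x := by
      rw [← sum_union_inter]
      have := sum_nonneg (s := F a ∩ s.biUnion F) fun x _ => hg x
      linarith
    linarith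

/-- the cell of a node -/
noncomputable def cel (N : ℕ × ℤ) : Finset ℤ := Ico (2 ^ N.1 * N.2) (2 ^ N.1 * (N.2 + 1))

theorem mem_cel {N : ℕ × ℤ} {x : ℤ} : x ∈ cel N ↔ x / 2 ^ N.1 = N.2 := mem_cell

theorem card_cel (N : ℕ × ℤ) : ((cel N).card : ℝ) = 2 ^ N.1 := by
  unfold cel
  rw [card_cell]
  push_cast
  rfl

theorem bel_of_cel {M M' : ℕ × ℤ} {x : ℤ} (h : x ∈ cel M) (h' : x ∈ cel M') (hl : M.1 ≤ M'.1) :
    Bel M M' := by
  rw [mem_cel] at h h'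
  refine ⟨hl, ?_⟩
  rw [← h, ← ediv_pow_add, ← h']
  congr 2
  omega

/-- incomparable cells are disjoint -/
theorem cel_disj {F : Finset (ℕ × ℤ)} (hinc : ∀ M ∈ F, ∀ M' ∈ F, Bel M M' → M = M') :
    (F : Set (ℕ × ℤ)).PairwiseDisjoint cel := by
  intro M hM M' hM' hne
  refine disjoint_left.2 fun x hx hx' => hne ?_
  rcases le_total M.1 M'.1 with h | h
  · exact hinc M hM M' hM' (bel_of_cel hx hx' h)
  · exact (hinc M' hM' M hM (bel_of_cel hx' hx h)).symm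

theorem sum_cel_le {F : Finset (ℕ × ℤ)} (hinc : ∀ M ∈ F, ∀ M' ∈ F, Bel M M' → M = M')
    {I : Finset ℤ} (hI : ∀ M ∈ F, cel M ⊆ I) : ∑ M ∈ F, (2 : ℝ) ^ M.1 ≤ I.card := by
  classical
  have h1 : ∑ M ∈ F, (2 : ℝ) ^ M.1 = ((F.biUnion cel).card : ℝ) := by
    rw [card_biUnion (cel_disj hinc)]
    push_cast
    exact sum_congr rfl fun M _ => (card_cel M).symm
  rw [h1]
  exact_mod_cast card_le_card (biUnion_subset.2 hI)

theorem W_nonempty (N : ℕ × ℤ) : (W N.1 N.2).Nonempty := by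
  refine ⟨2 ^ N.1 * N.2, ?_⟩
  rw [mem_W]
  have : (0 : ℤ) < 2 ^ N.1 := by positivity
  constructor <;> nlinarith

/-- a cell whose window meets the window of a larger cell -/
theorem cel_sub_of_meet {M M₀ : ℕ × ℤ} (hl : M.1 ≤ M₀.1)
    (h : ¬ Disjoint (W M.1 M.2) (W M₀.1 M₀.2)) :
    cel M ⊆ Ico (2 ^ M₀.1 * (M₀.2 - 33)) (2 ^ M₀.1 * (M₀.2 + 33)) := by
  rw [not_disjoint_iff] at h
  obtain ⟨y, hy, hy'⟩ := h
  rw [mem_W] at hy hy'
  intro x hx
  unfold cel at hx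
  rw [mem_Ico] at hx ⊢
  have h1 : (2 : ℤ) ^ M.1 ≤ 2 ^ M₀.1 := pow_le_pow_right₀ (by norm_num) hl
  have h2 : (0 : ℤ) < 2 ^ M.1 := by positivity
  obtain ⟨h3, h4⟩ := hx
  obtain ⟨h5, h6⟩ := hy
  obtain ⟨h7, h8⟩ := hy'
  constructor <;> nlinarith

theorem vitali (g : ℤ → ℝ) (hg : ∀ y, 0 ≤ g y) {τ : ℝ} (hτ : 0 ≤ τ) :
    ∀ (m : ℕ) (F : Finset (ℕ × ℤ)), F.card ≤ m →
    (∀ M ∈ F, ∀ M' ∈ F, Bel M M' → M = M') →
    (∀ M ∈ F, τ * 2 ^ M.1 ≤ ∑ y ∈ W M.1 M.2, g y) →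
    ∀ Y : Finset ℤ, (∀ M ∈ F, W M.1 M.2 ⊆ Y) →
    τ * ∑ M ∈ F, (2 : ℝ) ^ M.1 ≤ 66 * ∑ y ∈ Y, g y := by
  classical
  intro m
  induction m with
  | zero =>
    intro F hF _ _ Y _
    have : F = ∅ := card_eq_zero.1 (Nat.le_zero.1 hF)
    subst this
    simpa using sum_nonneg fun y _ => hg y
  | succ m ih =>
    intro F hF hinc hFτ Y hY
    rcases F.eq_empty_or_nonempty with rfl | hne
    · simpa using sum_nonneg fun y _ => hg y
    obtain ⟨M₀, hM₀, hmax⟩ := F.exists_max_image (fun M => M.1) hne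
    set F₁ := F.filter fun M => Disjoint (W M.1 M.2) (W M₀.1 M₀.2) with hF₁
    set F₂ := F.filter fun M => ¬ Disjoint (W M.1 M.2) (W M₀.1 M₀.2) with hF₂
    have hsplit : ∑ M ∈ F, (2 : ℝ) ^ M.1 = ∑ M ∈ F₁, (2 : ℝ) ^ M.1 + ∑ M ∈ F₂, (2 : ℝ) ^ M.1 :=
      (sum_filter_add_sum_filter_not F _ _).symm
    have hM₀F₁ : M₀ ∉ F₁ := by
      intro h
      have h1 := (mem_filter.1 h).2
      rw [disjoint_self] at h1
      exact (W_nonempty M₀).ne_empty h1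
    have hcard : F₁.card ≤ m := by
      have h1 : F₁ ⊂ F := by
        refine ⟨filter_subset _ _, fun h => hM₀F₁ (h hM₀)⟩
      have := card_lt_card h1
      omega
    have h1 := ih F₁ hcard (fun M hM M' hM' => hinc M (mem_filter.1 hM).1 M' (mem_filter.1 hM').1)
      (fun M hM => hFτ M (mem_filter.1 hM).1) (Y \ W M₀.1 M₀.2) (by
        intro M hM y hy
        obtain ⟨h2, h3⟩ := mem_filter.1 hM
        rw [mem_sdiff]
        exact ⟨hY M h2 hy, fun h4 => disjoint_left.1 h3 hy h4⟩)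
    have h2 : ∑ M ∈ F₂, (2 : ℝ) ^ M.1 ≤ 66 * 2 ^ M₀.1 := by
      have h3 := sum_cel_le (F := F₂)
        (fun M hM M' hM' => hinc M (mem_filter.1 hM).1 M' (mem_filter.1 hM').1)
        (I := Ico (2 ^ M₀.1 * (M₀.2 - 33)) (2 ^ M₀.1 * (M₀.2 + 33)))
        (fun M hM => cel_sub_of_meet (hmax M (mem_filter.1 hM).1) (mem_filter.1 hM).2)
      refine h3.trans (le_of_eq ?_)
      rw [Int.card_Ico]
      have e : (2 : ℤ) ^ M₀.1 * (M₀.2 + 33) - 2 ^ M₀.1 * (M₀.2 - 33) = ((66 * 2 ^ M₀.1 : ℕ) : ℤ) := by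
        push_cast; ring
      rw [e, Int.toNat_natCast]
      push_cast
      rfl
    have h3 : ∑ y ∈ Y, g y = ∑ y ∈ Y \ W M₀.1 M₀.2, g y + ∑ y ∈ W M₀.1 M₀.2, g y :=
      (sum_sdiff (hY M₀ hM₀)).symm
    have h4 := hFτ M₀ hM₀
    have h5 := mul_le_mul_of_nonneg_left h2 hτ
    rw [hsplit, h3]
    nlinarith

end Vale.Agent.P141.H393
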